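import Vale.Agent.P015.R2.H376.Walk

namespace Vale.Agent.P015.R2.H376

open Finset Filter Topology

theorem card_nbrs_le (D : ℝ) (x : {z : GaussianInt // Prime z}) :
    ((nbrs D x).card : ℝ) ≤ ((2 * ⌊D⌋₊ + 1) ^ 2 : ℕ) := by
  have h1 : ((nbrs D x).image (fun y => y.1 - x.1)).card = (nbrs D x).card := by
    apply Finset.card_image_of_injective
    intro a b hab
    have : a.1 = b.1 := by simpa using hab
    exact Subtype.ext this
  have h2 : (nbrs D x).image (fun y => y.1 - x.1) ⊆ stepBox ⌊D⌋₊ := by
    intro v hv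
    rw [Finset.mem_image] at hv
    obtain ⟨y, hy, rfl⟩ := hv
    rw [mem_nbrs] at hy
    exact step_mem hy.2
  have h3 : (nbrs D x).card ≤ (2 * ⌊D⌋₊ + 1) ^ 2 := by
    rw [← h1]
    exact (Finset.card_le_card h2).trans (card_stepBox _)
  exact_mod_cast h3

/-- `x` is joined in `G_D` to some `v` whose component is contained in `D(v, L)`. -/
def Small (D L : ℝ) (x : {z : GaussianInt // Prime z}) : Prop :=
  ∃ v, (moatGraph D).Reachable x v ∧ ∀ w, (moatGraph D).Reachable v w →
    dist (GaussianInt.toComplex v) (GaussianInt.toComplex w) ≤ L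

theorem small_congr {D L : ℝ} {x y : {z : GaussianInt // Prime z}}
    (h : (moatGraph D).Reachable x y) : Small D L x ↔ Small D L y :=
  ⟨fun ⟨v, h1, h2⟩ => ⟨v, h.symm.trans h1, h2⟩, fun ⟨v, h1, h2⟩ => ⟨v, h.trans h1, h2⟩⟩

open Classical in
/-- The function of small energy. -/
noncomputable def capFun (D L R : ℝ) (z₀ : ℂ) (x : {z : GaussianInt // Prime z}) : ℝ :=
  if Small D L x then
    (if ∃ y, (moatGraph D).Reachable x y ∧ dist (GaussianInt.toComplex y) z₀ ≤ R / 4 then 1 else 0)
  else max 0 (min 1 (2 - 4 * dist (GaussianInt.toComplex x) z₀ / R))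

theorem capFun_lip {R a b : ℝ} (hR : 0 < R) :
    |max 0 (min 1 (2 - 4 * a / R)) - max 0 (min 1 (2 - 4 * b / R))| ≤ 4 * |a - b| / R := by
  have h1 := abs_max_sub_max_le_abs (min 1 (2 - 4 * a / R)) (min 1 (2 - 4 * b / R)) 0
  rw [max_comm _ 0, max_comm _ 0] at h1
  have h2 := abs_min_sub_min_le_max 1 (2 - 4 * a / R) 1 (2 - 4 * b / R)
  have h3 : |(2 - 4 * a / R) - (2 - 4 * b / R)| = 4 * |a - b| / R := by
    have : (2 - 4 * a / R) - (2 - 4 * b / R) = (-(4 / R)) * (a - b) := by ring
    rw [this, abs_mul, abs_neg, abs_of_pos (by positivity)]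
    ring
  rw [h3] at h2
  have h4 : (0 : ℝ) ≤ 4 * |a - b| / R := by positivity
  simp only [sub_self, abs_zero] at h2
  rw [max_eq_right h4] at h2
  exact h1.trans h2

/-- Small capacities at every scale and place. -/
theorem capacity {D : ℝ} (hD : 1 ≤ D) : ∃ c : ℝ, 0 < c ∧ ∀ᶠ R : ℝ in atTop, ∀ z₀ : ℂ,
    ∃ g : {z : GaussianInt // Prime z} → ℝ,
      IsCap D R (Real.exp (-(c * (Real.log R / Real.log (Real.log R))))) z₀ g := by
  classical
  obtain ⟨c, hc, hfew⟩ := few_large hD
  refine ⟨c / 2, by positivity, ?_⟩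
  set K : ℝ := (((2 * ⌊D⌋₊ + 1) ^ 2 : ℕ) : ℝ) * (16 * D ^ 2) with hK
  have hK1 : 0 < K := by
    have h1 : (1 : ℝ) ≤ (((2 * ⌊D⌋₊ + 1) ^ 2 : ℕ) : ℝ) := by
      have : 1 ≤ (2 * ⌊D⌋₊ + 1) ^ 2 := Nat.one_le_pow _ _ (by omega)
      exact_mod_cast this
    have h2 : 0 < D := by linarith
    positivity
  have h1 : ∀ᶠ t : ℝ in atTop, Real.log K ≤ (c / 2) * (t / Real.log t) :=
    (tendsto_div_log.const_mul_atTop (show 0 < c / 2 by positivity)).eventually
      (eventually_ge_atTop _)
  have h3 : ∀ᶠ R : ℝ in atTop, Real.log R * 17 ≤ R := by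
    have h := Real.isLittleO_log_id_atTop.bound (show (0 : ℝ) < 1 / 17 by positivity)
    filter_upwards [h, eventually_gt_atTop (1 : ℝ)] with R hR hR1
    rw [Real.norm_of_nonneg (Real.log_nonneg hR1.le), id,
      Real.norm_of_nonneg (by linarith only [hR1])] at hR
    linarith
  filter_upwards [hfew, Real.tendsto_log_atTop.eventually h1, h3, eventually_gt_atTop (1 : ℝ),
    eventually_ge_atTop (2 * D)] with R hR hR2 hR3 hR4 hR5
  intro z₀
  set L := Real.log R with hL
  have hL0 : 0 < L := Real.log_pos hR4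
  have hR0 : 0 < R := by linarith
  set g := capFun D L R z₀ with hg
  -- the small components that come near `z₀` stay near
  have hnear : ∀ x : {z : GaussianInt // Prime z}, Small D L x →
      ∀ y : {z : GaussianInt // Prime z}, (moatGraph D).Reachable x y →
      dist (GaussianInt.toComplex y) z₀ ≤ R / 4 → dist (GaussianInt.toComplex x) z₀ < R / 2 := by
    rintro x ⟨v, hv1, hv2⟩ y hy1 hy2
    have h4 := hv2 x hv1.symm
    have h5 := hv2 y (hv1.symm.trans hy1)
    have h6 := dist_triangle (GaussianInt.toComplex x) (GaussianInt.toComplex v) z₀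
    have h7 := dist_triangle (GaussianInt.toComplex v) (GaussianInt.toComplex y) z₀
    rw [dist_comm (GaussianInt.toComplex x) (GaussianInt.toComplex v)] at h6
    linarith
  refine ⟨g, ?_, ?_, ?_, ?_⟩
  · intro x
    rw [hg, capFun]
    split_ifs
    · norm_num
    · norm_num
    · exact ⟨le_max_left _ _, max_le zero_le_one (min_le_left _ _)⟩
  · intro x hx
    rw [hg, capFun]
    by_cases hs : Small D L x
    · rw [if_pos hs, if_pos ⟨x, SimpleGraph.Reachable.refl x, hx⟩]
    · rw [if_neg hs]
      have h4 : 1 ≤ 2 - 4 * dist (GaussianInt.toComplex x) z₀ / R := by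
        have : 4 * dist (GaussianInt.toComplex x) z₀ / R ≤ 1 := by
          rw [div_le_one hR0]; linarith
        linarith
      rw [min_eq_left h4, max_eq_right zero_le_one]
  · intro x hx
    rw [hg, capFun]
    by_cases hs : Small D L x
    · rw [if_pos hs, if_neg]
      rintro ⟨y, hy1, hy2⟩
      exact absurd (hnear x hs y hy1 hy2) (not_lt.2 hx)
    · rw [if_neg hs]
      have h4 : 2 - 4 * dist (GaussianInt.toComplex x) z₀ / R ≤ 0 := by
        have : 2 ≤ 4 * dist (GaussianInt.toComplex x) z₀ / R := by
          rw [le_div_iff₀ hR0]; linarith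
        linarith
      exact max_eq_left ((min_le_right _ _).trans h4)
  · intro S
    -- only bad vertices in the disc contribute
    set X : Finset {z : GaussianInt // Prime z} := S.filter
      (fun x : {z : GaussianInt // Prime z} => dist (GaussianInt.toComplex x) z₀ ≤ R ∧
        ¬ Small D L x) with hX
    have hXcard : (X.card : ℝ) ≤ R ^ 2 * Real.exp (-(c * (L / Real.log L))) := by
      apply hR z₀ X
      intro z hz
      rw [hX, Finset.mem_filter] at hz
      refine ⟨hz.2.1, ?_⟩
      have h4 := hz.2.2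
      by_contra hcon
      push Not at hcon
      exact h4 ⟨z, SimpleGraph.Reachable.refl z, fun w hw => hcon w hw⟩
    have hterm : ∀ x ∈ S, ∑ y ∈ S, (if (moatGraph D).Adj x y then (g x - g y) ^ 2 else 0) ≤
        if x ∈ X then (((2 * ⌊D⌋₊ + 1) ^ 2 : ℕ) : ℝ) * (16 * D ^ 2 / R ^ 2) else 0 := by
      intro x hx
      have hzero : ∀ y, (moatGraph D).Adj x y → x ∉ X → g x = g y := by
        intro y hxy hxX
        by_cases hs : Small D L x
        · have hs' : Small D L y := (small_congr hxy.reachable).1 hs
          rw [hg, capFun, capFun, if_pos hs, if_pos hs']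
          have h5 : (∃ z, (moatGraph D).Reachable x z ∧ dist (GaussianInt.toComplex z) z₀ ≤ R / 4) ↔
              (∃ z, (moatGraph D).Reachable y z ∧ dist (GaussianInt.toComplex z) z₀ ≤ R / 4) :=
            ⟨fun ⟨z, h1, h2⟩ => ⟨z, hxy.reachable.symm.trans h1, h2⟩,
              fun ⟨z, h1, h2⟩ => ⟨z, hxy.reachable.trans h1, h2⟩⟩
          simp only [h5]
        · have hs' : ¬ Small D L y := fun h => hs ((small_congr hxy.reachable).2 h)
          have hfar : R < dist (GaussianInt.toComplex x) z₀ := by
            by_contra hcon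
            push Not at hcon
            apply hxX
            rw [hX, Finset.mem_filter]
            exact ⟨hx, hcon, hs⟩
          have h6 : dist (GaussianInt.toComplex x) (GaussianInt.toComplex y) ≤ D := hxy.2
          have h7 := dist_triangle (GaussianInt.toComplex x) (GaussianInt.toComplex y) z₀
          have z1 : ∀ u : {z : GaussianInt // Prime z}, ¬ Small D L u →
              R / 2 ≤ dist (GaussianInt.toComplex u) z₀ → g u = 0 := by
            intro u hu hur
            rw [hg, capFun, if_neg hu]
            have h4 : 2 - 4 * dist (GaussianInt.toComplex u) z₀ / R ≤ 0 := by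
              have : 2 ≤ 4 * dist (GaussianInt.toComplex u) z₀ / R := by
                rw [le_div_iff₀ hR0]; linarith
              linarith
            exact max_eq_left ((min_le_right _ _).trans h4)
          rw [z1 x hs (by linarith), z1 y hs' (by linarith)]
      by_cases hxX : x ∈ X
      · rw [if_pos hxX]
        have hs : ¬ Small D L x := by
          rw [hX, Finset.mem_filter] at hxX
          exact hxX.2.2
        have hb : ∀ y, (moatGraph D).Adj x y → (g x - g y) ^ 2 ≤ 16 * D ^ 2 / R ^ 2 := by
          intro y hxy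
          have hs' : ¬ Small D L y := fun h => hs ((small_congr hxy.reachable).2 h)
          have h6 : dist (GaussianInt.toComplex x) (GaussianInt.toComplex y) ≤ D := hxy.2
          have h7 : |g x - g y| ≤ 4 * |dist (GaussianInt.toComplex x) z₀ -
              dist (GaussianInt.toComplex y) z₀| / R := by
            rw [hg, capFun, capFun, if_neg hs, if_neg hs']
            exact capFun_lip hR0
          have h8 : |dist (GaussianInt.toComplex x) z₀ - dist (GaussianInt.toComplex y) z₀| ≤ D :=
            (abs_dist_sub_le _ _ _).trans h6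
          have h9 : |g x - g y| ≤ 4 * D / R := by
            refine h7.trans ?_
            apply div_le_div_of_nonneg_right _ hR0.le
            linarith
          rw [← sq_abs]
          calc |g x - g y| ^ 2 ≤ (4 * D / R) ^ 2 := pow_le_pow_left₀ (abs_nonneg _) h9 2
            _ = 16 * D ^ 2 / R ^ 2 := by ring
        have hD2 : 0 ≤ 16 * D ^ 2 / R ^ 2 := by positivity
        calc ∑ y ∈ S, (if (moatGraph D).Adj x y then (g x - g y) ^ 2 else 0)
            ≤ ∑ y ∈ S, (if y ∈ nbrs D x then 16 * D ^ 2 / R ^ 2 else 0) := by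
              apply Finset.sum_le_sum
              intro y _
              by_cases hxy : (moatGraph D).Adj x y
              · rw [if_pos hxy, if_pos (mem_nbrs.2 hxy)]
                exact hb y hxy
              · rw [if_neg hxy]
                split_ifs
                · exact hD2
                · exact le_rfl
          _ = ((S.filter (fun y => y ∈ nbrs D x)).card : ℝ) * (16 * D ^ 2 / R ^ 2) := by
              rw [← Finset.sum_filter, Finset.sum_const, nsmul_eq_mul]
          _ ≤ ((nbrs D x).card : ℝ) * (16 * D ^ 2 / R ^ 2) := by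
              apply mul_le_mul_of_nonneg_right _ hD2
              have : (S.filter (fun y => y ∈ nbrs D x)).card ≤ (nbrs D x).card := by
                apply Finset.card_le_card
                intro y hy
                exact (Finset.mem_filter.1 hy).2
              exact_mod_cast this
          _ ≤ _ := mul_le_mul_of_nonneg_right (card_nbrs_le D x) hD2
      · rw [if_neg hxX]
        apply le_of_eq
        apply Finset.sum_eq_zero
        intro y _
        by_cases hxy : (moatGraph D).Adj x y
        · rw [if_pos hxy, hzero y hxy hxX]; ring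
        · rw [if_neg hxy]
    have hXS : X ⊆ S := Finset.filter_subset _ _
    calc ∑ x ∈ S, ∑ y ∈ S, (if (moatGraph D).Adj x y then (g x - g y) ^ 2 else 0)
        ≤ ∑ x ∈ S, (if x ∈ X then (((2 * ⌊D⌋₊ + 1) ^ 2 : ℕ) : ℝ) * (16 * D ^ 2 / R ^ 2) else 0) :=
          Finset.sum_le_sum hterm
      _ = (X.card : ℝ) * ((((2 * ⌊D⌋₊ + 1) ^ 2 : ℕ) : ℝ) * (16 * D ^ 2 / R ^ 2)) := by
          rw [← Finset.sum_filter, Finset.sum_const, nsmul_eq_mul]
          congr 2
          congr 1
          ext y
          rw [Finset.mem_filter]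
          exact ⟨fun h => h.2, fun h => ⟨hXS h, h⟩⟩
      _ ≤ (R ^ 2 * Real.exp (-(c * (L / Real.log L)))) *
            ((((2 * ⌊D⌋₊ + 1) ^ 2 : ℕ) : ℝ) * (16 * D ^ 2 / R ^ 2)) := by
          apply mul_le_mul_of_nonneg_right hXcard
          positivity
      _ = K * Real.exp (-(c * (L / Real.log L))) := by
          rw [hK]
          field_simp
      _ ≤ Real.exp ((c / 2) * (L / Real.log L)) * Real.exp (-(c * (L / Real.log L))) := by
          apply mul_le_mul_of_nonneg_right _ (Real.exp_pos _).le
          rw [← Real.exp_log hK1]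
          exact Real.exp_le_exp.2 hR2
      _ = Real.exp (-(c / 2 * (L / Real.log L))) := by
          rw [← Real.exp_add]
          congr 1
          ring

/-- Every harmonic function on `G_D` of slow growth is constant on the components. -/
theorem liouville {D : ℝ} (hD : 1 ≤ D) : ∃ c : ℝ, 0 < c ∧
    ∀ h : {z : GaussianInt // Prime z} → ℝ, (∀ x, ∑ y ∈ nbrs D x, (h x - h y) = 0) →
    (∃ᶠ R : ℝ in atTop, ∀ x : {z : GaussianInt // Prime z}, ‖GaussianInt.toComplex x‖ ≤ R →
      |h x| ≤ Real.exp (c * (Real.log R / Real.log (Real.log R)))) →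
    ∀ x y, (moatGraph D).Reachable x y → h x = h y := by
  obtain ⟨c, hc, hcap⟩ := capacity hD
  refine ⟨c / 4, by positivity, ?_⟩
  intro h hh hfreq
  have hadj : ∀ x y, (moatGraph D).Adj x y → h x = h y := by
    intro x y hxy
    by_contra hne
    have hpos : 0 < (h x - h y) ^ 2 := by
      have : h x - h y ≠ 0 := sub_ne_zero.2 hne
      positivity
    have h1 : ∀ᶠ t : ℝ in atTop,
        Real.log (4 / (h x - h y) ^ 2) < (c / 2) * (t / Real.log t) :=
      (tendsto_div_log.const_mul_atTop (show 0 < c / 2 by positivity)).eventually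
        (eventually_gt_atTop _)
    have hev : ∀ᶠ R : ℝ in atTop, (∀ z₀ : ℂ, ∃ g : {z : GaussianInt // Prime z} → ℝ,
        IsCap D R (Real.exp (-(c * (Real.log R / Real.log (Real.log R))))) z₀ g) ∧
        Real.log (4 / (h x - h y) ^ 2) < (c / 2) * (Real.log R / Real.log (Real.log R)) ∧
        2 * D ≤ R ∧ 4 * ‖GaussianInt.toComplex x‖ ≤ R ∧ 4 * ‖GaussianInt.toComplex y‖ ≤ R := by
      filter_upwards [hcap, Real.tendsto_log_atTop.eventually h1, eventually_ge_atTop (2 * D),
        eventually_ge_atTop (4 * ‖GaussianInt.toComplex x‖),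
        eventually_ge_atTop (4 * ‖GaussianInt.toComplex y‖)] with R a1 a2 a3 a4 a5
      exact ⟨a1, a2, a3, a4, a5⟩
    obtain ⟨R, hRb, hR1, hR2, hR3, hR4, hR5⟩ := (hfreq.and_eventually hev).exists
    obtain ⟨g, hg⟩ := hR1 0
    have hfin := harmonic_le hR3 hg h (fun u _ => hh u)
      (M := Real.exp (c / 4 * (Real.log R / Real.log (Real.log R))))
      (fun u hu => hRb u (by simpa using hu))
      (x := x) (y := y) (by rw [dist_zero_right]; linarith) (by rw [dist_zero_right]; linarith) hxy
    set T := Real.log R / Real.log (Real.log R) with hT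
    have h5 : 4 * Real.exp (c / 4 * T) ^ 2 * Real.exp (-(c * T)) = 4 * Real.exp (-(c / 2 * T)) := by
      rw [pow_two, mul_assoc, ← Real.exp_add, ← Real.exp_add]
      congr 2
      ring
    rw [h5] at hfin
    have h6 : 4 / (h x - h y) ^ 2 < Real.exp (c / 2 * T) := by
      rw [← Real.exp_log (show 0 < 4 / (h x - h y) ^ 2 by positivity)]
      exact Real.exp_lt_exp.2 hR2
    rw [div_lt_iff₀ hpos] at h6
    have h7 : Real.exp (c / 2 * T) * (h x - h y) ^ 2 ≤
        Real.exp (c / 2 * T) * (4 * Real.exp (-(c / 2 * T))) :=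
      mul_le_mul_of_nonneg_left hfin (Real.exp_pos _).le
    have h8 : Real.exp (c / 2 * T) * (4 * Real.exp (-(c / 2 * T))) = 4 := by
      rw [mul_left_comm, ← Real.exp_add]
      simp
    linarith
  intro x y hxy
  obtain ⟨p⟩ := hxy
  induction p with
  | nil => rfl
  | cons hab p ih => exact (hadj _ _ hab).trans ih

/-- The simple random walk from `A` leaves the disc of radius `R` before its return to `A` with
very small probability. -/
theorem walk_exit {D : ℝ} (hD : 1 ≤ D) : ∃ c : ℝ, 0 < c ∧ ∀ᶠ R : ℝ in atTop, ∀ (z₀ : ℂ)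
    (A : Finset {z : GaussianInt // Prime z}),
    (∀ x ∈ A, dist (GaussianInt.toComplex x) z₀ ≤ R / 4) → ∀ n : ℕ,
    ∑ x ∈ A, ∑ y ∈ nbrs D x, exitProb D A z₀ R n y ≤
      Real.exp (-(c * (Real.log R / Real.log (Real.log R)))) := by
  obtain ⟨c, hc, hcap⟩ := capacity hD
  refine ⟨c, hc, ?_⟩
  filter_upwards [hcap, eventually_ge_atTop (0 : ℝ)] with R hR hR0
  intro z₀ A hA n
  obtain ⟨g, hg⟩ := hR z₀
  have h1 := exit_le hR0 hg A hA n
  have h2 := Real.exp_pos (-(c * (Real.log R / Real.log (Real.log R))))
  linarith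

end Vale.Agent.P015.R2.H376
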