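import Vale.Agent.P015.R2.H376.Cap

namespace Vale.Agent.P015.R2.H376

open Finset Filter Topology

/-- Conductances `κ` on the edges of `G_D`, symmetric, with values in `[0, 1]`. -/
def IsCond (D : ℝ) (κ : {z : GaussianInt // Prime z} → {z : GaussianInt // Prime z} → ℝ) : Prop :=
  (∀ x y, κ x y = κ y x) ∧ (∀ x y, 0 ≤ κ x y ∧ κ x y ≤ 1) ∧
    ∀ x y, ¬ (moatGraph D).Adj x y → κ x y = 0

open Classical in
/-- The probability that the random walk with conductances `κ` started at `x` leaves the disc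
`|z - z₀| ≤ R` after at most `n` steps, before its first visit (at a time `≥ 0`) to `A`. -/
noncomputable def exitProbK (D : ℝ)
    (κ : {z : GaussianInt // Prime z} → {z : GaussianInt // Prime z} → ℝ)
    (A : Set {z : GaussianInt // Prime z}) (z₀ : ℂ) (R : ℝ) :
    ℕ → {z : GaussianInt // Prime z} → ℝ
  | 0, x => if dist (GaussianInt.toComplex x) z₀ ≤ R then 0 else 1
  | n + 1, x => if x ∈ A then 0 else
      if dist (GaussianInt.toComplex x) z₀ ≤ R then
        (∑ y ∈ nbrs D x, κ x y * exitProbK D κ A z₀ R n y) / (∑ y ∈ nbrs D x, κ x y) else 1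

theorem sum_cond {D R r : ℝ} {κ : {z : GaussianInt // Prime z} → {z : GaussianInt // Prime z} → ℝ}
    (hκ : IsCond D κ) {z₀ : ℂ} (h : R + D ≤ r) {x : {z : GaussianInt // Prime z}}
    (hx : x ∈ disc z₀ R) (f : {z : GaussianInt // Prime z} → ℝ) :
    ∑ y ∈ disc z₀ r, κ x y * f y = ∑ y ∈ nbrs D x, κ x y * f y := by
  symm
  apply Finset.sum_subset (nbrs_subset h hx)
  intro y _ hy
  rw [mem_nbrs] at hy
  rw [hκ.2.2 x y hy, zero_mul]

theorem energy_cond {D R η : ℝ} {κ : {z : GaussianInt // Prime z} → {z : GaussianInt // Prime z} → ℝ}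
    (hκ : IsCond D κ) {z₀ : ℂ} {g : {z : GaussianInt // Prime z} → ℝ}
    (hg : IsCap D R η z₀ g) (S : Finset {z : GaussianInt // Prime z}) :
    ∑ x ∈ S, ∑ y ∈ S, κ x y * (g x - g y) ^ 2 ≤ η := by
  classical
  refine le_trans (Finset.sum_le_sum (fun x _ => Finset.sum_le_sum (fun y _ => ?_))) (hg.2.2.2 S)
  by_cases h : (moatGraph D).Adj x y
  · rw [if_pos h]
    have h1 := (hκ.2.1 x y).2
    have h2 := sq_nonneg (g x - g y)
    nlinarith
  · rw [if_neg h, hκ.2.2 x y h, zero_mul]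

theorem exitK_le {D R η : ℝ} (hR : 0 ≤ R) {z₀ : ℂ} {g : {z : GaussianInt // Prime z} → ℝ}
    (hg : IsCap D R η z₀ g)
    {κ : {z : GaussianInt // Prime z} → {z : GaussianInt // Prime z} → ℝ} (hκ : IsCond D κ)
    (A : Finset {z : GaussianInt // Prime z})
    (hA : ∀ x ∈ A, dist (GaussianInt.toComplex x) z₀ ≤ R / 4) (n : ℕ) :
    ∑ x ∈ A, ∑ y ∈ nbrs D x, κ x y * exitProbK D κ A z₀ R n y ≤ η / 2 := by
  classical
  have g1 := hg.1
  have g2 := hg.2.1
  have g3 := hg.2.2.1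
  have hAB : A ⊆ disc z₀ R := by
    intro x hx
    rw [mem_disc]
    linarith [hA x hx]
  have hBS : disc z₀ R ⊆ disc z₀ (R + |D|) := by
    intro x hx
    rw [mem_disc] at hx ⊢
    linarith [abs_nonneg D]
  have hRD : R + D ≤ R + |D| := by linarith [le_abs_self D]
  have key := escape_le (disc z₀ (R + |D|)) (disc z₀ R) A hAB hBS
    κ hκ.1 (fun x y => (hκ.2.1 x y).1)
    (exitProbK D κ A z₀ R)
    (fun x => by
      rw [exitProbK]
      simp only [mem_disc])
    (fun n x hx => by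
      rw [exitProbK, if_pos (Finset.mem_coe.2 hx)])
    (fun n x hx => by
      have h1 : x ∉ (A : Set {z : GaussianInt // Prime z}) := fun h => hx (hAB (Finset.mem_coe.1 h))
      have h2 : ¬ dist (GaussianInt.toComplex x) z₀ ≤ R := fun h => hx (mem_disc.2 h)
      rw [exitProbK, if_neg h1, if_neg h2])
    (fun n x hx hxA => by
      have h1 : x ∉ (A : Set {z : GaussianInt // Prime z}) := fun h => hxA (Finset.mem_coe.1 h)
      have h2 : dist (GaussianInt.toComplex x) z₀ ≤ R := mem_disc.1 hx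
      have h3 : ∑ y ∈ disc z₀ (R + |D|), κ x y = ∑ y ∈ nbrs D x, κ x y := by
        have := sum_cond hκ hRD hx (fun _ => (1 : ℝ))
        simpa using this
      rw [exitProbK, if_neg h1, if_pos h2, sum_cond hκ hRD hx, h3])
    g (fun x => (g1 x).1) (fun x hx => g2 x (hA x hx))
    (fun x hx => g3 x (by
      have h2 : ¬ dist (GaussianInt.toComplex x) z₀ ≤ R := fun h => hx (mem_disc.2 h)
      push Not at h2
      linarith))
    n
  have h5 : ∑ x ∈ A, ∑ y ∈ disc z₀ (R + |D|), κ x y * exitProbK D κ A z₀ R n y =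
      ∑ x ∈ A, ∑ y ∈ nbrs D x, κ x y * exitProbK D κ A z₀ R n y :=
    Finset.sum_congr rfl (fun x hx => sum_cond hκ hRD (hAB hx) _)
  have h6 := energy_cond hκ hg (disc z₀ (R + |D|))
  rw [h5] at key
  linarith

theorem harmonicK_le {D R η M : ℝ} (hRD : 2 * D ≤ R) {z₀ : ℂ}
    {g : {z : GaussianInt // Prime z} → ℝ} (hg : IsCap D R η z₀ g)
    {κ : {z : GaussianInt // Prime z} → {z : GaussianInt // Prime z} → ℝ} (hκ : IsCond D κ)
    (h : {z : GaussianInt // Prime z} → ℝ)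
    (hh : ∀ x : {z : GaussianInt // Prime z}, dist (GaussianInt.toComplex x) z₀ < R →
      ∑ y ∈ nbrs D x, κ x y * (h x - h y) = 0)
    (hM : ∀ x : {z : GaussianInt // Prime z}, dist (GaussianInt.toComplex x) z₀ ≤ R → |h x| ≤ M)
    {x y : {z : GaussianInt // Prime z}} (hx : dist (GaussianInt.toComplex x) z₀ ≤ R / 4)
    (hy : dist (GaussianInt.toComplex y) z₀ ≤ R / 4) :
    κ x y * (h x - h y) ^ 2 ≤ 4 * M ^ 2 * η := by
  classical
  have g2 := hg.2.1
  have g3 := hg.2.2.1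
  have hR0 : 0 ≤ R := by
    have := dist_nonneg (x := GaussianInt.toComplex x) (y := z₀)
    linarith
  have key := caccioppoli (disc z₀ R) κ hκ.1 (fun x y => (hκ.2.1 x y).1) g h (M := M)
    (fun x hx => hM x (mem_disc.1 hx))
    (fun x _ hgx => by
      have h1 : dist (GaussianInt.toComplex x) z₀ < R / 2 := by
        by_contra hcon
        push Not at hcon
        exact hgx (g3 x hcon)
      have h2 : x ∈ disc z₀ (R / 2) := mem_disc.2 h1.le
      rw [sum_cond (r := R) hκ (show R / 2 + D ≤ R by linarith) h2 (fun y => h x - h y)]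
      exact hh x (by linarith))
  have h4 := energy_cond hκ hg (disc z₀ R)
  have hxd : x ∈ disc z₀ R := mem_disc.2 (by linarith)
  have hyd : y ∈ disc z₀ R := mem_disc.2 (by linarith)
  have hnn : ∀ a b : {z : GaussianInt // Prime z}, 0 ≤ κ a b *
      ((g a ^ 2 + g b ^ 2) / 2 * (h a - h b) ^ 2) := by
    intro a b
    apply mul_nonneg (hκ.2.1 a b).1
    positivity
  have h8 : κ x y * (h x - h y) ^ 2 ≤ ∑ x ∈ disc z₀ R, ∑ y ∈ disc z₀ R,
      κ x y * ((g x ^ 2 + g y ^ 2) / 2 * (h x - h y) ^ 2) := by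
    calc κ x y * (h x - h y) ^ 2 = κ x y * ((g x ^ 2 + g y ^ 2) / 2 * (h x - h y) ^ 2) := by
          rw [g2 x hx, g2 y hy]; ring
      _ ≤ ∑ b ∈ disc z₀ R, κ x b * ((g x ^ 2 + g b ^ 2) / 2 * (h x - h b) ^ 2) :=
          Finset.single_le_sum (f := fun b => κ x b *
            ((g x ^ 2 + g b ^ 2) / 2 * (h x - h b) ^ 2)) (fun b _ => hnn x b) hyd
      _ ≤ _ := Finset.single_le_sum (f := fun a => ∑ b ∈ disc z₀ R, κ a b *
            ((g a ^ 2 + g b ^ 2) / 2 * (h a - h b) ^ 2))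
            (fun a _ => Finset.sum_nonneg (fun b _ => hnn a b)) hxd
  have h9 : 0 ≤ 4 * M ^ 2 := by positivity
  calc κ x y * (h x - h y) ^ 2 ≤ _ := h8
    _ ≤ _ := key
    _ ≤ 4 * M ^ 2 * η := mul_le_mul_of_nonneg_left h4 h9

/-- The random walks. -/
theorem walk_exitK {D : ℝ} (hD : 1 ≤ D) : ∃ c : ℝ, 0 < c ∧ ∀ᶠ R : ℝ in atTop,
    ∀ κ, IsCond D κ → ∀ (z₀ : ℂ) (A : Finset {z : GaussianInt // Prime z}),
    (∀ x ∈ A, dist (GaussianInt.toComplex x) z₀ ≤ R / 4) → ∀ n : ℕ,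
    ∑ x ∈ A, ∑ y ∈ nbrs D x, κ x y * exitProbK D κ A z₀ R n y ≤
      Real.exp (-(c * (Real.log R / Real.log (Real.log R)))) := by
  obtain ⟨c, hc, hcap⟩ := capacity hD
  refine ⟨c, hc, ?_⟩
  filter_upwards [hcap, eventually_ge_atTop (0 : ℝ)] with R hR hR0
  intro κ hκ z₀ A hA n
  obtain ⟨g, hg⟩ := hR z₀
  have h1 := exitK_le hR0 hg hκ A hA n
  have h2 := Real.exp_pos (-(c * (Real.log R / Real.log (Real.log R))))
  linarith

/-- Harmonic functions of slow growth, all conductances. -/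
theorem liouvilleK {D : ℝ} (hD : 1 ≤ D) : ∃ c : ℝ, 0 < c ∧ ∀ κ, IsCond D κ →
    ∀ h : {z : GaussianInt // Prime z} → ℝ, (∀ x, ∑ y ∈ nbrs D x, κ x y * (h x - h y) = 0) →
    (∃ᶠ R : ℝ in atTop, ∀ x : {z : GaussianInt // Prime z}, ‖GaussianInt.toComplex x‖ ≤ R →
      |h x| ≤ Real.exp (c * (Real.log R / Real.log (Real.log R)))) →
    ∀ x y, κ x y ≠ 0 → h x = h y := by
  obtain ⟨c, hc, hcap⟩ := capacity hD
  refine ⟨c / 4, by positivity, ?_⟩
  intro κ hκ h hh hfreq x y hxy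
  have hk0 : 0 < κ x y := lt_of_le_of_ne (hκ.2.1 x y).1 (Ne.symm hxy)
  by_contra hne
  have hpos : 0 < κ x y * (h x - h y) ^ 2 := by
    have : h x - h y ≠ 0 := sub_ne_zero.2 hne
    positivity
  have h1 : ∀ᶠ t : ℝ in atTop,
      Real.log (4 / (κ x y * (h x - h y) ^ 2)) < (c / 2) * (t / Real.log t) :=
    (tendsto_div_log.const_mul_atTop (show 0 < c / 2 by positivity)).eventually
      (eventually_gt_atTop _)
  have hev : ∀ᶠ R : ℝ in atTop, (∀ z₀ : ℂ, ∃ g : {z : GaussianInt // Prime z} → ℝ,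
      IsCap D R (Real.exp (-(c * (Real.log R / Real.log (Real.log R))))) z₀ g) ∧
      Real.log (4 / (κ x y * (h x - h y) ^ 2)) <
        (c / 2) * (Real.log R / Real.log (Real.log R)) ∧
      2 * D ≤ R ∧ 4 * ‖GaussianInt.toComplex x‖ ≤ R ∧ 4 * ‖GaussianInt.toComplex y‖ ≤ R := by
    filter_upwards [hcap, Real.tendsto_log_atTop.eventually h1, eventually_ge_atTop (2 * D),
      eventually_ge_atTop (4 * ‖GaussianInt.toComplex x‖),
      eventually_ge_atTop (4 * ‖GaussianInt.toComplex y‖)] with R a1 a2 a3 a4 a5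
    exact ⟨a1, a2, a3, a4, a5⟩
  obtain ⟨R, hRb, hR1, hR2, hR3, hR4, hR5⟩ := (hfreq.and_eventually hev).exists
  obtain ⟨g, hg⟩ := hR1 0
  have hfin := harmonicK_le hR3 hg hκ h (fun u _ => hh u)
    (M := Real.exp (c / 4 * (Real.log R / Real.log (Real.log R))))
    (fun u hu => hRb u (by simpa using hu))
    (x := x) (y := y) (by rw [dist_zero_right]; linarith) (by rw [dist_zero_right]; linarith)
  set T := Real.log R / Real.log (Real.log R) with hT
  have h5 : 4 * Real.exp (c / 4 * T) ^ 2 * Real.exp (-(c * T)) = 4 * Real.exp (-(c / 2 * T)) := by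
    rw [pow_two, mul_assoc, ← Real.exp_add, ← Real.exp_add]
    congr 2
    ring
  rw [h5] at hfin
  have h6 : 4 / (κ x y * (h x - h y) ^ 2) < Real.exp (c / 2 * T) := by
    rw [← Real.exp_log (show 0 < 4 / (κ x y * (h x - h y) ^ 2) by positivity)]
    exact Real.exp_lt_exp.2 hR2
  rw [div_lt_iff₀ hpos] at h6
  have h7 : Real.exp (c / 2 * T) * (κ x y * (h x - h y) ^ 2) ≤
      Real.exp (c / 2 * T) * (4 * Real.exp (-(c / 2 * T))) :=
    mul_le_mul_of_nonneg_left hfin (Real.exp_pos _).le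
  have h8 : Real.exp (c / 2 * T) * (4 * Real.exp (-(c / 2 * T))) = 4 := by
    rw [mul_left_comm, ← Real.exp_add]
    simp
  linarith

end Vale.Agent.P015.R2.H376
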