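import Vale.Agent.P015.R2.H376.Uni

namespace Vale.Agent.P015.R2.H376

open Finset Filter Topology

/-- The Dirichlet energy of a bounded harmonic function in the inner disc. -/
theorem harmonic_energy {D R η M : ℝ} (hRD : 2 * D ≤ R) (hR0 : 0 ≤ R) {z₀ : ℂ}
    {g : {z : GaussianInt // Prime z} → ℝ} (hg : IsCap D R η z₀ g)
    {κ : {z : GaussianInt // Prime z} → {z : GaussianInt // Prime z} → ℝ} (hκ : IsCond D κ)
    (h : {z : GaussianInt // Prime z} → ℝ)
    (hh : ∀ x : {z : GaussianInt // Prime z}, dist (GaussianInt.toComplex x) z₀ < R →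
      ∑ y ∈ nbrs D x, κ x y * (h x - h y) = 0)
    (hM : ∀ x : {z : GaussianInt // Prime z}, dist (GaussianInt.toComplex x) z₀ ≤ R → |h x| ≤ M)
    (T : Finset {z : GaussianInt // Prime z})
    (hT : ∀ x ∈ T, dist (GaussianInt.toComplex x) z₀ ≤ R / 4) :
    ∑ x ∈ T, ∑ y ∈ T, κ x y * (h x - h y) ^ 2 ≤ 4 * M ^ 2 * η := by
  classical
  have g2 := hg.2.1
  have g3 := hg.2.2.1
  have key := caccioppoli (disc z₀ R) κ hκ.1 (fun x y => (hκ.2.1 x y).1) g h (M := M)
    (fun x hx => hM x (mem_disc.1 hx))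
    (fun x _ hgx => by
      have h1 : dist (GaussianInt.toComplex x) z₀ < R / 2 := by
        by_contra hcon
        push Not at hcon
        exact hgx (g3 x hcon)
      have h2 : x ∈ disc z₀ (R / 2) := mem_disc.2 h1.le
      rw [sum_cond (r := R) hκ (show R / 2 + D ≤ R by linarith) h2 (fun y => h x - h y)]
      exact hh x (by
        have := dist_nonneg (x := GaussianInt.toComplex x) (y := z₀)
        linarith))
  have h4 := energy_cond hκ hg (disc z₀ R)
  have hTS : T ⊆ disc z₀ R := fun x hx => mem_disc.2 (by linarith [hT x hx])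
  have hnn : ∀ a b : {z : GaussianInt // Prime z}, 0 ≤ κ a b *
      ((g a ^ 2 + g b ^ 2) / 2 * (h a - h b) ^ 2) := by
    intro a b
    apply mul_nonneg (hκ.2.1 a b).1
    positivity
  have h8 : ∑ x ∈ T, ∑ y ∈ T, κ x y * (h x - h y) ^ 2 ≤ ∑ x ∈ disc z₀ R, ∑ y ∈ disc z₀ R,
      κ x y * ((g x ^ 2 + g y ^ 2) / 2 * (h x - h y) ^ 2) := by
    calc ∑ x ∈ T, ∑ y ∈ T, κ x y * (h x - h y) ^ 2
        = ∑ x ∈ T, ∑ y ∈ T, κ x y * ((g x ^ 2 + g y ^ 2) / 2 * (h x - h y) ^ 2) := by
          refine Finset.sum_congr rfl (fun x hx => Finset.sum_congr rfl (fun y hy => ?_))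
          rw [g2 x (hT x hx), g2 y (hT y hy)]
          ring
      _ ≤ ∑ x ∈ T, ∑ y ∈ disc z₀ R, κ x y * ((g x ^ 2 + g y ^ 2) / 2 * (h x - h y) ^ 2) :=
          Finset.sum_le_sum (fun x _ => Finset.sum_le_sum_of_subset_of_nonneg hTS
            (fun y _ _ => hnn x y))
      _ ≤ _ := Finset.sum_le_sum_of_subset_of_nonneg hTS
          (fun x _ _ => Finset.sum_nonneg (fun y _ => hnn x y))
  have h9 : 0 ≤ 4 * M ^ 2 := by positivity
  calc ∑ x ∈ T, ∑ y ∈ T, κ x y * (h x - h y) ^ 2 ≤ _ := h8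
    _ ≤ _ := key
    _ ≤ 4 * M ^ 2 * η := mul_le_mul_of_nonneg_left h4 h9

theorem main :
    (∃ C : ℝ, 0 < C ∧ ∀ D : ℝ, 1 ≤ D → ∀ k : ℕ, 2 ≤ k → ∀ R : ℝ,
      Real.exp (C * D ^ C * (k * Real.log k)) ≤ R → ∀ z₀ : ℂ,
      (∃ g : {z : GaussianInt // Prime z} → ℝ, IsCap D R (3600 * D ^ 4 * Real.exp (-k)) z₀ g) ∧
      ∀ κ, IsCond D κ →
        (∀ A : Finset {z : GaussianInt // Prime z},
          (∀ x ∈ A, dist (GaussianInt.toComplex x) z₀ ≤ R / 4) → ∀ n : ℕ,
          ∑ x ∈ A, ∑ y ∈ nbrs D x, κ x y * exitProbK D κ A z₀ R n y ≤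
            1800 * D ^ 4 * Real.exp (-k)) ∧
        ∀ (h : {z : GaussianInt // Prime z} → ℝ) (M : ℝ),
          (∀ x : {z : GaussianInt // Prime z}, dist (GaussianInt.toComplex x) z₀ < R →
            ∑ y ∈ nbrs D x, κ x y * (h x - h y) = 0) →
          (∀ x : {z : GaussianInt // Prime z}, dist (GaussianInt.toComplex x) z₀ ≤ R →
            |h x| ≤ M) →
          ∀ T : Finset {z : GaussianInt // Prime z},
            (∀ x ∈ T, dist (GaussianInt.toComplex x) z₀ ≤ R / 4) →
            ∑ x ∈ T, ∑ y ∈ T, κ x y * (h x - h y) ^ 2 ≤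
              14400 * D ^ 4 * M ^ 2 * Real.exp (-k)) ∧
    ∀ D : ℝ, 1 ≤ D → ∃ c : ℝ, 0 < c ∧
      (∀ᶠ R : ℝ in atTop, ∀ z₀ : ℂ,
        (∃ g : {z : GaussianInt // Prime z} → ℝ,
          IsCap D R (Real.exp (-(c * (Real.log R / Real.log (Real.log R))))) z₀ g) ∧
        ∀ κ, IsCond D κ → ∀ A : Finset {z : GaussianInt // Prime z},
          (∀ x ∈ A, dist (GaussianInt.toComplex x) z₀ ≤ R / 4) → ∀ n : ℕ,
          ∑ x ∈ A, ∑ y ∈ nbrs D x, κ x y * exitProbK D κ A z₀ R n y ≤
            Real.exp (-(c * (Real.log R / Real.log (Real.log R))))) ∧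
      ∀ κ, IsCond D κ → ∀ h : {z : GaussianInt // Prime z} → ℝ,
        (∀ x, ∑ y ∈ nbrs D x, κ x y * (h x - h y) = 0) →
        (∃ᶠ R : ℝ in atTop, ∀ x : {z : GaussianInt // Prime z}, ‖GaussianInt.toComplex x‖ ≤ R →
          |h x| ≤ Real.exp (c * (Real.log R / Real.log (Real.log R)))) →
        ∀ x y, κ x y ≠ 0 → h x = h y := by
  constructor
  · obtain ⟨C, hC, hcap⟩ := capacity_uniform
    refine ⟨max C 2, lt_of_lt_of_le hC (le_max_left _ _), ?_⟩
    intro D hD k hk R hR z₀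
    have hk2 : (2 : ℝ) ≤ k := by exact_mod_cast hk
    have hlog2 : (0.69 : ℝ) < Real.log 2 := by
      have := Real.log_two_gt_d9
      linarith
    have hlogk : Real.log 2 ≤ Real.log k := Real.log_le_log (by norm_num) hk2
    have hklog : 1 ≤ (k : ℝ) * Real.log k := by nlinarith
    have hDC : D ≤ D ^ (max C 2) := by
      have := Real.rpow_le_rpow_of_exponent_le hD
        (show (1 : ℝ) ≤ max C 2 from le_trans (by norm_num) (le_max_right C 2))
      rwa [Real.rpow_one] at this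
    have hDC0 : D ^ C ≤ D ^ (max C 2) :=
      Real.rpow_le_rpow_of_exponent_le hD (le_max_left _ _)
    have hDC0p : 0 < D ^ C := Real.rpow_pos_of_pos (by linarith) _
    have hDCp : 0 < D ^ (max C 2) := Real.rpow_pos_of_pos (by linarith) _
    have hm2 : (2 : ℝ) ≤ max C 2 := le_max_right _ _
    have hR1 : 2 * D + 1 ≤ R := by
      refine le_trans ?_ (le_trans (Real.add_one_le_exp _) hR)
      have h1 : 2 * D ≤ max C 2 * D ^ (max C 2) :=
        mul_le_mul hm2 hDC (by linarith) (by linarith)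
      have h2 : max C 2 * D ^ (max C 2) * 1 ≤ max C 2 * D ^ (max C 2) * (k * Real.log k) :=
        mul_le_mul_of_nonneg_left hklog (by positivity)
      linarith
    have hR' : Real.exp (C * D ^ C * (k * Real.log k)) ≤ R := by
      refine le_trans (Real.exp_le_exp.2 ?_) hR
      apply mul_le_mul_of_nonneg_right _ (by linarith)
      exact mul_le_mul (le_max_left _ _) hDC0 hDC0p.le (by linarith)
    obtain ⟨g, hg⟩ := hcap D hD k hk R hR' z₀
    refine ⟨⟨g, hg⟩, ?_⟩
    intro κ hκ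
    constructor
    · intro A hA n
      have h1 := exitK_le (by linarith) hg hκ A hA n
      linarith
    · intro h M hh hM T hT
      have h1 := harmonic_energy (by linarith) (by linarith) hg hκ h hh hM T hT
      linarith
  · intro D hD
    obtain ⟨c₁, hc₁, h1⟩ := capacity hD
    obtain ⟨c₂, hc₂, h2⟩ := walk_exitK hD
    obtain ⟨c₃, hc₃, h3⟩ := liouvilleK hD
    refine ⟨min c₁ (min c₂ c₃), by positivity, ?_, ?_⟩
    · have hT : ∀ᶠ R : ℝ in atTop, 0 ≤ Real.log R / Real.log (Real.log R) :=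
        (tendsto_div_log.comp Real.tendsto_log_atTop).eventually (eventually_ge_atTop 0)
      filter_upwards [h1, h2, hT] with R hR1 hR2 hR3
      intro z₀
      constructor
      · obtain ⟨g, hg⟩ := hR1 z₀
        refine ⟨g, hg.mono (Real.exp_le_exp.2 (neg_le_neg ?_))⟩
        exact mul_le_mul_of_nonneg_right (min_le_left _ _) hR3
      · intro κ hκ A hA n
        refine (hR2 κ hκ z₀ A hA n).trans (Real.exp_le_exp.2 (neg_le_neg ?_))
        exact mul_le_mul_of_nonneg_right ((min_le_right _ _).trans (min_le_left _ _)) hR3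
    · intro κ hκ h hh hfreq
      refine h3 κ hκ h hh ?_
      have hT : ∀ᶠ R : ℝ in atTop, 0 ≤ Real.log R / Real.log (Real.log R) :=
        (tendsto_div_log.comp Real.tendsto_log_atTop).eventually (eventually_ge_atTop 0)
      refine (hfreq.and_eventually hT).mono ?_
      rintro R ⟨h5, h6⟩ x hx
      refine (h5 x hx).trans (Real.exp_le_exp.2 ?_)
      exact mul_le_mul_of_nonneg_right ((min_le_right _ _).trans (min_le_right _ _)) h6

end Vale.Agent.P015.R2.H376
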