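import Vale.Agent.P015.R2.H376.WDefs
import Vale.Agent.P015.R2.H376.Fin

namespace Vale.Agent.P015.R2.H376

open Finset Filter Topology Walks

theorem finsum_cond {D : ℝ}
    {κ : {z : GaussianInt // Prime z} → {z : GaussianInt // Prime z} → ℝ}
    (hκ : IsConductance D κ) (x : {z : GaussianInt // Prime z})
    (f : {z : GaussianInt // Prime z} → ℝ) :
    ∑ᶠ y, κ x y * f y = ∑ y ∈ nbrs D x, κ x y * f y := by
  apply finsum_eq_sum_of_support_subset
  intro y hy
  rw [Function.mem_support] at hy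
  rw [Finset.mem_coe, mem_nbrs]
  by_contra hcon
  exact hy (by rw [hκ.2.2 x y hcon, zero_mul])

theorem finsum_cond' {D : ℝ}
    {κ : {z : GaussianInt // Prime z} → {z : GaussianInt // Prime z} → ℝ}
    (hκ : IsConductance D κ) (x : {z : GaussianInt // Prime z}) :
    ∑ᶠ y, κ x y = ∑ y ∈ nbrs D x, κ x y := by
  have := finsum_cond hκ x (fun _ => (1 : ℝ))
  simpa using this

theorem escape_eq {D : ℝ}
    {κ : {z : GaussianInt // Prime z} → {z : GaussianInt // Prime z} → ℝ}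
    (hκ : IsConductance D κ) (A : Finset {z : GaussianInt // Prime z}) (z₀ : ℂ) (R : ℝ) :
    ∀ (n : ℕ) (x : {z : GaussianInt // Prime z}),
      escapeProb κ A z₀ R n x = exitProbK D κ A z₀ R n x := by
  intro n
  induction n with
  | zero => intro x; rw [escapeProb, exitProbK]
  | succ n ih =>
    intro x
    rw [escapeProb, exitProbK, finsum_cond hκ, finsum_cond' hκ]
    simp only [ih, Finset.mem_coe]

theorem main' :
    (∃ C : ℝ, 0 < C ∧ ∀ D : ℝ, 1 ≤ D → ∀ k : ℕ, 2 ≤ k → ∀ R : ℝ,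
      Real.exp (C * D ^ C * (k * Real.log k)) ≤ R → ∀ z₀ : ℂ,
      (∃ g, IsCutoff D R (3600 * D ^ 4 * Real.exp (-k)) z₀ g) ∧
      ∀ κ, IsConductance D κ →
        (∀ A : Finset {z : GaussianInt // Prime z},
          (∀ x ∈ A, dist (GaussianInt.toComplex x) z₀ ≤ R / 4) → ∀ n : ℕ,
          ∑ x ∈ A, ∑ᶠ y, κ x y * escapeProb κ A z₀ R n y ≤ 1800 * D ^ 4 * Real.exp (-k)) ∧
        ∀ (h : {z : GaussianInt // Prime z} → ℝ) (M : ℝ),
          (∀ x : {z : GaussianInt // Prime z}, dist (GaussianInt.toComplex x) z₀ < R →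
            ∑ᶠ y, κ x y * (h x - h y) = 0) →
          (∀ x : {z : GaussianInt // Prime z}, dist (GaussianInt.toComplex x) z₀ ≤ R →
            |h x| ≤ M) →
          ∀ T : Finset {z : GaussianInt // Prime z},
            (∀ x ∈ T, dist (GaussianInt.toComplex x) z₀ ≤ R / 4) →
            ∑ x ∈ T, ∑ y ∈ T, κ x y * (h x - h y) ^ 2 ≤
              14400 * D ^ 4 * M ^ 2 * Real.exp (-k)) ∧
    ∀ D : ℝ, 1 ≤ D → ∃ c : ℝ, 0 < c ∧
      (∀ᶠ R : ℝ in atTop, ∀ z₀ : ℂ,
        (∃ g, IsCutoff D R (Real.exp (-(c * (Real.log R / Real.log (Real.log R))))) z₀ g) ∧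
        ∀ κ, IsConductance D κ → ∀ A : Finset {z : GaussianInt // Prime z},
          (∀ x ∈ A, dist (GaussianInt.toComplex x) z₀ ≤ R / 4) → ∀ n : ℕ,
          ∑ x ∈ A, ∑ᶠ y, κ x y * escapeProb κ A z₀ R n y ≤
            Real.exp (-(c * (Real.log R / Real.log (Real.log R))))) ∧
      ∀ κ, IsConductance D κ → ∀ h : {z : GaussianInt // Prime z} → ℝ,
        (∀ x, ∑ᶠ y, κ x y * (h x - h y) = 0) →
        (∃ᶠ R : ℝ in atTop, ∀ x : {z : GaussianInt // Prime z}, ‖GaussianInt.toComplex x‖ ≤ R →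
          |h x| ≤ Real.exp (c * (Real.log R / Real.log (Real.log R)))) →
        ∀ x y, κ x y ≠ 0 → h x = h y := by
  obtain ⟨⟨C, hC, h1⟩, h2⟩ := main
  refine ⟨⟨C, hC, ?_⟩, ?_⟩
  · intro D hD k hk R hR z₀
    obtain ⟨h3, h4⟩ := h1 D hD k hk R hR z₀
    refine ⟨h3, ?_⟩
    intro κ hκ
    obtain ⟨h5, h6⟩ := h4 κ hκ
    constructor
    · intro A hA n
      have h7 := h5 A hA n
      simp only [escape_eq hκ A z₀ R n, finsum_cond hκ]
      exact h7
    · intro h M hh hM T hT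
      exact h6 h M (fun x hx => by rw [← finsum_cond hκ x (fun y => h x - h y)]; exact hh x hx)
        hM T hT
  · intro D hD
    obtain ⟨c, hc, h3, h4⟩ := h2 D hD
    refine ⟨c, hc, ?_, ?_⟩
    · filter_upwards [h3] with R hR
      intro z₀
      obtain ⟨h5, h6⟩ := hR z₀
      refine ⟨h5, ?_⟩
      intro κ hκ A hA n
      have h7 := h6 κ hκ A hA n
      simp only [escape_eq hκ A z₀ R n, finsum_cond hκ]
      exact h7
    · intro κ hκ h hh hfreq
      exact h4 κ hκ h (fun x => by rw [← finsum_cond hκ x (fun y => h x - h y)]; exact hh x) hfreq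

end Vale.Agent.P015.R2.H376
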