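import Vale.Agent.P015.R2.H376.WDefs2
import Vale.Agent.P015.R2.H376.Glue

namespace Vale.Agent.P015.R2.H376

open Finset Filter Topology Walks

theorem log_le_half {t : ℝ} (ht : 0 < t) : Real.log t ≤ t / 2 := by
  have h1 : Real.log t = 2 * Real.log (Real.sqrt t) := by
    rw [Real.log_sqrt ht.le]; ring
  have h2 : Real.log (Real.sqrt t) ≤ Real.sqrt t - 1 :=
    Real.log_le_sub_one_of_pos (Real.sqrt_pos.2 ht)
  have h3 : Real.sqrt t ^ 2 = t := Real.sq_sqrt ht.le
  nlinarith [sq_nonneg (Real.sqrt t - 2)]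

/-- Steps of a growing walk near the disc of radius `R` are short. -/
theorem step_le {c R : ℝ} (hc0 : 0 < c) (hc1 : c ≤ 1) (hR : 32 ≤ R) {x y : ℂ}
    (hx : ‖x‖ ≤ 2 * R) (h : dist x y ≤ Real.log (‖x‖ + ‖y‖ + 16) ^ c) :
    dist x y ≤ (2 * Real.log R) ^ c := by
  set t := ‖x‖ + ‖y‖ + 16 with ht
  have ht16 : 16 ≤ t := by
    have := norm_nonneg x
    have := norm_nonneg y
    linarith
  have hlog1 : 1 ≤ Real.log t := by
    rw [Real.le_log_iff_exp_le (by linarith)]
    have := Real.exp_one_lt_d9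
    linarith
  have h1 : Real.log t ^ c ≤ Real.log t := by
    calc Real.log t ^ c ≤ Real.log t ^ (1 : ℝ) := Real.rpow_le_rpow_of_exponent_le hlog1 hc1
      _ = Real.log t := Real.rpow_one _
  have h2 := log_le_half (show 0 < t by linarith)
  have h3 : ‖y‖ ≤ ‖x‖ + dist x y := by
    rw [dist_comm, dist_eq_norm]
    have := norm_add_le x (y - x)
    simpa only [add_sub_cancel] using this
  have h4 : t ≤ 4 * ‖x‖ + 32 := by linarith
  have h5 : t ≤ R ^ 2 := by nlinarith
  have h6 : Real.log t ≤ 2 * Real.log R := by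
    calc Real.log t ≤ Real.log (R ^ 2) := Real.log_le_log (by linarith) h5
      _ = 2 * Real.log R := by rw [Real.log_pow]; norm_num
  exact h.trans (Real.rpow_le_rpow (by linarith) h6 hc0.le)

open Classical in
/-- The conductances of the edges which touch the disc. -/
noncomputable def cutCond (κ : {z : GaussianInt // Prime z} → {z : GaussianInt // Prime z} → ℝ)
    (z₀ : ℂ) (R : ℝ) (x y : {z : GaussianInt // Prime z}) : ℝ :=
  if dist (GaussianInt.toComplex x) z₀ ≤ R ∨ dist (GaussianInt.toComplex y) z₀ ≤ R then κ x y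
  else 0

theorem cutCond_isConductance {c R : ℝ} (hc0 : 0 < c) (hc1 : c ≤ 1) (hR : 32 ≤ R) {z₀ : ℂ}
    (hz : ‖z₀‖ ≤ R)
    {κ : {z : GaussianInt // Prime z} → {z : GaussianInt // Prime z} → ℝ}
    (hκ : IsGrowingConductance c κ) :
    IsConductance ((2 * Real.log R) ^ c) (cutCond κ z₀ R) := by
  have hnorm : ∀ u : {z : GaussianInt // Prime z}, dist (GaussianInt.toComplex u) z₀ ≤ R →
      ‖GaussianInt.toComplex u‖ ≤ 2 * R := by
    intro u hu
    have h2 : ‖GaussianInt.toComplex u‖ ≤ ‖z₀‖ + dist (GaussianInt.toComplex u) z₀ := by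
      rw [dist_eq_norm]
      have := norm_add_le z₀ (GaussianInt.toComplex u - z₀)
      simpa only [add_sub_cancel] using this
    linarith
  refine ⟨?_, ?_, ?_⟩
  · intro x y
    unfold cutCond
    rw [hκ.1 x y]
    simp only [or_comm]
  · intro x y
    unfold cutCond
    split_ifs
    · exact hκ.2.1 x y
    · norm_num
  · intro x y hxy
    unfold cutCond
    split_ifs with h
    · by_contra hne
      obtain ⟨h1, h2⟩ := hκ.2.2 x y hne
      apply hxy
      refine ⟨h1, ?_⟩
      rcases h with h | h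
      · exact step_le hc0 hc1 hR (hnorm x h) h2
      · rw [dist_comm] at h2 ⊢
        rw [add_comm ‖GaussianInt.toComplex x‖] at h2
        exact step_le hc0 hc1 hR (hnorm y h) h2
    · rfl

theorem cutCond_eq {κ : {z : GaussianInt // Prime z} → {z : GaussianInt // Prime z} → ℝ}
    {z₀ : ℂ} {R : ℝ} {x : {z : GaussianInt // Prime z}}
    (hx : dist (GaussianInt.toComplex x) z₀ ≤ R) (y : {z : GaussianInt // Prime z}) :
    cutCond κ z₀ R x y = κ x y := by
  unfold cutCond
  rw [if_pos (Or.inl hx)]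

theorem escape_cut (κ : {z : GaussianInt // Prime z} → {z : GaussianInt // Prime z} → ℝ)
    (A : Finset {z : GaussianInt // Prime z}) (z₀ : ℂ) (R : ℝ) :
    ∀ (n : ℕ) (x : {z : GaussianInt // Prime z}),
      escapeProb (cutCond κ z₀ R) A z₀ R n x = escapeProb κ A z₀ R n x := by
  intro n
  induction n with
  | zero => intro x; rw [escapeProb, escapeProb]
  | succ n ih =>
    intro x
    rw [escapeProb, escapeProb]
    by_cases hx : dist (GaussianInt.toComplex x) z₀ ≤ R
    · simp only [ih, cutCond_eq hx]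
    · rw [if_neg hx, if_neg hx]

/-- The choice of the parameters. -/
theorem params {C β : ℝ} (hC : 0 < C) (hβ : β < 1) : ∃ c : ℝ, 0 < c ∧ c ≤ 1 ∧
    ∀ᶠ L : ℝ in atTop, ∃ k : ℕ, 2 ≤ k ∧ 1 ≤ (2 * L) ^ c ∧
      C * ((2 * L) ^ c) ^ C * (k * Real.log k) ≤ L ∧
      14400 * ((2 * L) ^ c) ^ 4 * Real.exp (L ^ β) ^ 2 * Real.exp (-k) ≤ Real.exp (-(L ^ β)) ∧
      1800 * ((2 * L) ^ c) ^ 4 * Real.exp (-k) ≤ Real.exp (-(L ^ β)) := by
  set b : ℝ := (max β (1 / 2) + 1) / 2 with hb
  have hb1 : b < 1 := by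
    have : max β (1 / 2) < 1 := max_lt hβ (by norm_num)
    rw [hb]; linarith
  have hbβ : β < b := by
    have h1 : β ≤ max β (1 / 2) := le_max_left _ _
    have h2 : max β (1 / 2) < 1 := max_lt hβ (by norm_num)
    rw [hb]; linarith
  have hb0 : 0 < b := by
    have : (1 / 2 : ℝ) ≤ max β (1 / 2) := le_max_right _ _
    rw [hb]; linarith
  set c : ℝ := min 1 ((1 - b) / (2 * C)) with hc
  have hc0 : 0 < c := by
    rw [hc]
    apply lt_min one_pos
    have : 0 < 1 - b := by linarith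
    positivity
  have hc1 : c ≤ 1 := min_le_left _ _
  have hcC : c * C ≤ (1 - b) / 2 := by
    calc c * C ≤ (1 - b) / (2 * C) * C := mul_le_mul_of_nonneg_right (min_le_right _ _) hC.le
      _ = (1 - b) / 2 := by field_simp
  refine ⟨c, hc0, hc1, ?_⟩
  -- asymptotic facts
  have e1 : ∀ᶠ L : ℝ in atTop, Real.log L ≤ 1 / (16 * C) * L ^ ((1 - b) / 2) := by
    have h := (isLittleO_log_rpow_atTop (show 0 < (1 - b) / 2 by linarith)).bound
      (show (0 : ℝ) < 1 / (16 * C) by positivity)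
    filter_upwards [h, eventually_ge_atTop (1 : ℝ)] with L hL hL1
    rw [Real.norm_of_nonneg (Real.log_nonneg hL1),
      Real.norm_of_nonneg (Real.rpow_nonneg (by linarith) _)] at hL
    exact hL
  have e2 : ∀ᶠ L : ℝ in atTop, Real.log L ≤ 1 / 16 * L ^ b := by
    have h := (isLittleO_log_rpow_atTop hb0).bound (show (0 : ℝ) < 1 / 16 by norm_num)
    filter_upwards [h, eventually_ge_atTop (1 : ℝ)] with L hL hL1
    rw [Real.norm_of_nonneg (Real.log_nonneg hL1),
      Real.norm_of_nonneg (Real.rpow_nonneg (by linarith) _)] at hL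
    exact hL
  have e3 : ∀ᶠ L : ℝ in atTop, 4 * (Real.log 14400 + 4 * Real.log 2) + 2 ≤ L ^ b :=
    (tendsto_rpow_atTop hb0).eventually (eventually_ge_atTop _)
  have e4 : ∀ᶠ L : ℝ in atTop, 6 ≤ L ^ (b - β) :=
    (tendsto_rpow_atTop (show 0 < b - β by linarith)).eventually (eventually_ge_atTop _)
  filter_upwards [e1, e2, e3, e4, eventually_ge_atTop (16 : ℝ)] with L h1 h2 h3 h4 h5
  have hL0 : 0 < L := by linarith
  have hlog1 : 1 ≤ Real.log L := by
    rw [Real.le_log_iff_exp_le hL0]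
    have := Real.exp_one_lt_d9
    linarith
  have hLb0 : 0 < L ^ b := Real.rpow_pos_of_pos hL0 _
  have hlog14400 : 0 < Real.log 14400 := Real.log_pos (by norm_num)
  have hlog2 : 0 < Real.log 2 := Real.log_pos (by norm_num)
  have hLb2 : 2 ≤ L ^ b := by linarith
  set k : ℕ := ⌈L ^ b⌉₊ with hk
  have hk1 : L ^ b ≤ k := Nat.le_ceil _
  have hk2 : (k : ℝ) < L ^ b + 1 := Nat.ceil_lt_add_one hLb0.le
  have hk3 : (k : ℝ) ≤ 2 * L ^ b := by linarith
  have hk4 : (2 : ℝ) ≤ k := by linarith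
  have hD1 : 1 ≤ (2 * L) ^ c := Real.one_le_rpow (by linarith) hc0.le
  have hD0 : 0 < (2 * L) ^ c := by linarith
  -- `log k ≤ 2 log L`
  have hLbL : L ^ b ≤ L := by
    calc L ^ b ≤ L ^ (1 : ℝ) := Real.rpow_le_rpow_of_exponent_le (by linarith) hb1.le
      _ = L := Real.rpow_one _
  have hlogk : Real.log k ≤ 2 * Real.log L := by
    calc Real.log k ≤ Real.log (L ^ 2) := by
          apply Real.log_le_log (by linarith)
          nlinarith
      _ = 2 * Real.log L := by rw [Real.log_pow]; norm_num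
  have hlogk0 : 0 ≤ Real.log k := Real.log_nonneg (by linarith)
  have hDC : ((2 * L) ^ c) ^ C ≤ 2 * L ^ ((1 - b) / 2) := by
    rw [← Real.rpow_mul (by linarith)]
    calc (2 * L) ^ (c * C) ≤ (2 * L) ^ ((1 - b) / 2) :=
          Real.rpow_le_rpow_of_exponent_le (by linarith) hcC
      _ = 2 ^ ((1 - b) / 2) * L ^ ((1 - b) / 2) := Real.mul_rpow (by norm_num) hL0.le
      _ ≤ 2 * L ^ ((1 - b) / 2) := by
          apply mul_le_mul_of_nonneg_right _ (Real.rpow_nonneg hL0.le _)
          calc (2 : ℝ) ^ ((1 - b) / 2) ≤ 2 ^ (1 : ℝ) :=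
                Real.rpow_le_rpow_of_exponent_le (by norm_num) (by linarith)
            _ = 2 := Real.rpow_one _
  have hP0 : 0 ≤ L ^ ((1 - b) / 2) := Real.rpow_nonneg hL0.le _
  have hprod : L ^ ((1 - b) / 2) * L ^ b * L ^ ((1 - b) / 2) = L := by
    rw [← Real.rpow_add hL0, ← Real.rpow_add hL0]
    have : (1 - b) / 2 + b + (1 - b) / 2 = 1 := by ring
    rw [this, Real.rpow_one]
  have hklogk : (k : ℝ) * Real.log k ≤ 2 * L ^ b * (2 * Real.log L) :=
    mul_le_mul hk3 hlogk hlogk0 (by linarith)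
  have hcond : C * ((2 * L) ^ c) ^ C * (k * Real.log k) ≤ L := by
    calc C * ((2 * L) ^ c) ^ C * (k * Real.log k)
        ≤ C * (2 * L ^ ((1 - b) / 2)) * (2 * L ^ b * (2 * Real.log L)) := by
          apply mul_le_mul _ hklogk (mul_nonneg (by linarith) hlogk0) (by positivity)
          exact mul_le_mul_of_nonneg_left hDC hC.le
      _ ≤ C * (2 * L ^ ((1 - b) / 2)) * (2 * L ^ b *
            (2 * (1 / (16 * C) * L ^ ((1 - b) / 2)))) := by
          apply mul_le_mul_of_nonneg_left _ (by positivity)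
          apply mul_le_mul_of_nonneg_left _ (by positivity)
          linarith
      _ = (1 / 2) * (L ^ ((1 - b) / 2) * L ^ b * L ^ ((1 - b) / 2)) := by
          field_simp
          ring
      _ ≤ L := by rw [hprod]; linarith
  -- the error terms
  have hDle : ((2 * L) ^ c) ^ 4 ≤ Real.exp (4 * Real.log 2 + 4 * Real.log L) := by
    have hle : (2 * L) ^ c ≤ 2 * L := by
      calc (2 * L) ^ c ≤ (2 * L) ^ (1 : ℝ) :=
            Real.rpow_le_rpow_of_exponent_le (by linarith) hc1
        _ = 2 * L := Real.rpow_one _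
    calc ((2 * L) ^ c) ^ 4 ≤ (2 * L) ^ 4 := pow_le_pow_left₀ hD0.le hle 4
      _ = Real.exp (4 * Real.log 2 + 4 * Real.log L) := by
          have : 4 * Real.log 2 + 4 * Real.log L = ((4 : ℕ) : ℝ) * Real.log (2 * L) := by
            rw [Real.log_mul (by norm_num) hL0.ne']
            push_cast
            ring
          rw [this, Real.exp_nat_mul, Real.exp_log (by linarith)]
  have h6 : 6 * L ^ β ≤ L ^ b := by
    have : L ^ b = L ^ (b - β) * L ^ β := by
      rw [← Real.rpow_add hL0]; congr 1; ring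
    rw [this]
    exact mul_le_mul_of_nonneg_right h4 (Real.rpow_nonneg hL0.le _)
  have hβ0 : 0 ≤ L ^ β := Real.rpow_nonneg hL0.le _
  have hmain : 14400 * ((2 * L) ^ c) ^ 4 * Real.exp (L ^ β) ^ 2 * Real.exp (-k) ≤
      Real.exp (-(L ^ β)) := by
    have h14400 : (14400 : ℝ) = Real.exp (Real.log 14400) := (Real.exp_log (by norm_num)).symm
    calc 14400 * ((2 * L) ^ c) ^ 4 * Real.exp (L ^ β) ^ 2 * Real.exp (-k)
        ≤ Real.exp (Real.log 14400) * Real.exp (4 * Real.log 2 + 4 * Real.log L) *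
            Real.exp (L ^ β) ^ 2 * Real.exp (-k) := by
          rw [← h14400]
          gcongr
      _ = Real.exp (Real.log 14400 + (4 * Real.log 2 + 4 * Real.log L) + 2 * L ^ β - k) := by
          rw [← Real.exp_nat_mul, ← Real.exp_add, ← Real.exp_add, ← Real.exp_add]
          congr 1
      _ ≤ Real.exp (-(L ^ β)) := by
          apply Real.exp_le_exp.2
          linarith
  refine ⟨k, by exact_mod_cast hk4, hD1, hcond, hmain, ?_⟩
  refine le_trans ?_ hmain
  have h7 : 1 ≤ Real.exp (L ^ β) ^ 2 := one_le_pow₀ (Real.one_le_exp hβ0)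
  have h8 : 0 ≤ ((2 * L) ^ c) ^ 4 * Real.exp (-(k : ℝ)) := by positivity
  nlinarith [mul_nonneg h8 (show (0 : ℝ) ≤ Real.exp (L ^ β) ^ 2 - 1 by linarith)]

/-- Walks with growing steps. -/
theorem growing {β : ℝ} (hβ : β < 1) : ∃ c : ℝ, 0 < c ∧
    (∀ᶠ R : ℝ in atTop, ∀ z₀ : ℂ, ‖z₀‖ ≤ R → ∀ κ, IsGrowingConductance c κ →
      ∀ A : Finset {z : GaussianInt // Prime z},
      (∀ x ∈ A, dist (GaussianInt.toComplex x) z₀ ≤ R / 4) → ∀ n : ℕ,
      ∑ x ∈ A, ∑ᶠ y, κ x y * escapeProb κ A z₀ R n y ≤ Real.exp (-(Real.log R ^ β))) ∧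
    ∀ κ, IsGrowingConductance c κ → ∀ h : {z : GaussianInt // Prime z} → ℝ,
      (∀ x, ∑ᶠ y, κ x y * (h x - h y) = 0) →
      (∃ᶠ R : ℝ in atTop, ∀ x : {z : GaussianInt // Prime z}, ‖GaussianInt.toComplex x‖ ≤ R →
        |h x| ≤ Real.exp (Real.log R ^ β)) →
      ∀ x y, κ x y ≠ 0 → h x = h y := by
  obtain ⟨⟨C, hC, H⟩, -⟩ := main'
  set b : ℝ := max β (1 / 2) with hb
  have hb1 : b < 1 := max_lt hβ (by norm_num)
  have hb0 : 0 < b := lt_of_lt_of_le (by norm_num) (le_max_right β (1 / 2))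
  have hβb : β ≤ b := le_max_left _ _
  obtain ⟨c, hc0, hc1, hpar⟩ := params hC hb1
  have hpar' := Real.tendsto_log_atTop.eventually hpar
  have hlog1 : ∀ᶠ R : ℝ in atTop, 1 ≤ Real.log R :=
    Real.tendsto_log_atTop.eventually (eventually_ge_atTop _)
  refine ⟨c, hc0, ?_, ?_⟩
  · filter_upwards [hpar', hlog1, eventually_ge_atTop (32 : ℝ)] with R hR hR1 hR32
    obtain ⟨k, hk, hD1, hcond, -, hsmall⟩ := hR
    intro z₀ hz κ hκ A hA n
    have hRexp : Real.exp (C * ((2 * Real.log R) ^ c) ^ C * (k * Real.log k)) ≤ R := by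
      calc _ ≤ Real.exp (Real.log R) := Real.exp_le_exp.2 hcond
        _ = R := Real.exp_log (by linarith)
    obtain ⟨-, h1⟩ := H _ hD1 k hk R hRexp z₀
    have h2 := (h1 _ (cutCond_isConductance hc0 hc1 hR32 hz hκ)).1 A hA n
    have h3 : ∑ x ∈ A, ∑ᶠ y, κ x y * escapeProb κ A z₀ R n y =
        ∑ x ∈ A, ∑ᶠ y, cutCond κ z₀ R x y * escapeProb (cutCond κ z₀ R) A z₀ R n y := by
      refine Finset.sum_congr rfl (fun x hx => finsum_congr (fun y => ?_))
      have hxR : dist (GaussianInt.toComplex x) z₀ ≤ R := by linarith [hA x hx]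
      rw [cutCond_eq hxR, escape_cut]
    rw [h3]
    refine h2.trans (hsmall.trans (Real.exp_le_exp.2 (neg_le_neg ?_)))
    exact Real.rpow_le_rpow_of_exponent_le hR1 hβb
  · intro κ hκ h hh hfreq x y hxy
    classical
    have hk0 : 0 < κ x y := lt_of_le_of_ne (hκ.2.1 x y).1 (Ne.symm hxy)
    by_contra hne
    have hpos : 0 < κ x y * (h x - h y) ^ 2 := by
      have : h x - h y ≠ 0 := sub_ne_zero.2 hne
      positivity
    have hval : ∀ᶠ R : ℝ in atTop,
        -Real.log (κ x y * (h x - h y) ^ 2) < Real.log R ^ b :=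
      ((tendsto_rpow_atTop hb0).comp Real.tendsto_log_atTop).eventually (eventually_gt_atTop _)
    have hev : ∀ᶠ R : ℝ in atTop, (∃ k : ℕ, 2 ≤ k ∧ 1 ≤ (2 * Real.log R) ^ c ∧
        C * ((2 * Real.log R) ^ c) ^ C * (k * Real.log k) ≤ Real.log R ∧
        14400 * ((2 * Real.log R) ^ c) ^ 4 * Real.exp (Real.log R ^ b) ^ 2 * Real.exp (-k) ≤
          Real.exp (-(Real.log R ^ b)) ∧
        1800 * ((2 * Real.log R) ^ c) ^ 4 * Real.exp (-k) ≤ Real.exp (-(Real.log R ^ b))) ∧
        -Real.log (κ x y * (h x - h y) ^ 2) < Real.log R ^ b ∧ 1 ≤ Real.log R ∧ 32 ≤ R ∧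
        4 * ‖GaussianInt.toComplex x‖ ≤ R ∧ 4 * ‖GaussianInt.toComplex y‖ ≤ R := by
      filter_upwards [hpar', hval, hlog1, eventually_ge_atTop (32 : ℝ),
        eventually_ge_atTop (4 * ‖GaussianInt.toComplex x‖),
        eventually_ge_atTop (4 * ‖GaussianInt.toComplex y‖)] with R a1 a2 a3 a4 a5 a6
      exact ⟨a1, a2, a3, a4, a5, a6⟩
    obtain ⟨R, hRb, ⟨k, hk, hD1, hcond, hsmall, -⟩, hR2, hR1, hR32, hR4, hR5⟩ :=
      (hfreq.and_eventually hev).exists
    have hRexp : Real.exp (C * ((2 * Real.log R) ^ c) ^ C * (k * Real.log k)) ≤ R := by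
      calc _ ≤ Real.exp (Real.log R) := Real.exp_le_exp.2 hcond
        _ = R := Real.exp_log (by linarith)
    obtain ⟨-, h1⟩ := H _ hD1 k hk R hRexp 0
    have hcd := cutCond_isConductance hc0 hc1 hR32 (z₀ := 0) (by rw [norm_zero]; linarith) hκ
    have hdx : dist (GaussianInt.toComplex x) 0 ≤ R / 4 := by rw [dist_zero_right]; linarith
    have hdy : dist (GaussianInt.toComplex y) 0 ≤ R / 4 := by rw [dist_zero_right]; linarith
    have h2 := (h1 _ hcd).2 h (Real.exp (Real.log R ^ b))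
      (fun u hu => by
        rw [← hh u]
        exact finsum_congr (fun v => by rw [cutCond_eq hu.le]))
      (fun u hu => (hRb u (by simpa using hu)).trans
        (Real.exp_le_exp.2 (Real.rpow_le_rpow_of_exponent_le hR1 hβb)))
      {x, y} (fun u hu => by
        rw [Finset.mem_insert, Finset.mem_singleton] at hu
        rcases hu with rfl | rfl
        · exact hdx
        · exact hdy)
    have hnn : ∀ a b : {z : GaussianInt // Prime z},
        0 ≤ cutCond κ 0 R a b * (h a - h b) ^ 2 :=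
      fun a b => mul_nonneg (hcd.2.1 a b).1 (sq_nonneg _)
    have h3 : κ x y * (h x - h y) ^ 2 ≤ ∑ a ∈ ({x, y} : Finset {z : GaussianInt // Prime z}),
        ∑ b ∈ ({x, y} : Finset {z : GaussianInt // Prime z}),
          cutCond κ 0 R a b * (h a - h b) ^ 2 := by
      calc κ x y * (h x - h y) ^ 2 = cutCond κ 0 R x y * (h x - h y) ^ 2 := by
            rw [cutCond_eq (show dist (GaussianInt.toComplex x) 0 ≤ R by linarith)]
        _ ≤ ∑ b ∈ ({x, y} : Finset {z : GaussianInt // Prime z}),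
              cutCond κ 0 R x b * (h x - h b) ^ 2 :=
            Finset.single_le_sum (f := fun b => cutCond κ 0 R x b * (h x - h b) ^ 2)
              (fun b _ => hnn x b) (by simp)
        _ ≤ _ := Finset.single_le_sum
            (f := fun a => ∑ b ∈ ({x, y} : Finset {z : GaussianInt // Prime z}),
              cutCond κ 0 R a b * (h a - h b) ^ 2)
            (fun a _ => Finset.sum_nonneg (fun b _ => hnn a b)) (by simp)
    have h4 : Real.exp (-(Real.log R ^ b)) < κ x y * (h x - h y) ^ 2 := by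
      rw [← Real.exp_log hpos]
      exact Real.exp_lt_exp.2 (by linarith)
    linarith

end Vale.Agent.P015.R2.H376
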