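import Vale.Agent.P015.MathlibUsed

namespace Vale.Agent.P015.R2.H376

open Finset

/-- Caccioppoli inequality on a finite network. -/
theorem caccioppoli {V : Type*} (S : Finset V) (w : V → V → ℝ)
    (hs : ∀ x y, w x y = w y x) (h0 : ∀ x y, 0 ≤ w x y) (g h : V → ℝ) {M : ℝ}
    (hM : ∀ x ∈ S, |h x| ≤ M)
    (hh : ∀ x ∈ S, g x ≠ 0 → ∑ y ∈ S, w x y * (h x - h y) = 0) :
    ∑ x ∈ S, ∑ y ∈ S, w x y * ((g x ^ 2 + g y ^ 2) / 2 * (h x - h y) ^ 2) ≤
      4 * M ^ 2 * ∑ x ∈ S, ∑ y ∈ S, w x y * (g x - g y) ^ 2 := by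
  have e1 : ∀ x ∈ S, ∑ y ∈ S, w x y * (g x ^ 2 * h x * (h x - h y)) = 0 := by
    intro x hx
    by_cases hg : g x = 0
    · simp [hg]
    · have h3 := hh x hx hg
      calc ∑ y ∈ S, w x y * (g x ^ 2 * h x * (h x - h y))
          = g x ^ 2 * h x * ∑ y ∈ S, w x y * (h x - h y) := by
            rw [Finset.mul_sum]
            exact Finset.sum_congr rfl (fun y _ => by ring)
        _ = 0 := by rw [h3, mul_zero]
  have e2 : ∑ x ∈ S, ∑ y ∈ S, w x y * (g y ^ 2 * h y * (h x - h y)) = 0 := by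
    rw [Finset.sum_comm]
    apply Finset.sum_eq_zero
    intro y hy
    have h3 := e1 y hy
    calc ∑ x ∈ S, w x y * (g y ^ 2 * h y * (h x - h y))
        = - ∑ x ∈ S, w y x * (g y ^ 2 * h y * (h y - h x)) := by
          rw [← Finset.sum_neg_distrib]
          exact Finset.sum_congr rfl (fun x _ => by rw [hs x y]; ring)
      _ = 0 := by rw [h3, neg_zero]
  have key : ∑ x ∈ S, ∑ y ∈ S,
      w x y * ((g x ^ 2 * h x - g y ^ 2 * h y) * (h x - h y)) = 0 := by
    have e3 : ∑ x ∈ S, ∑ y ∈ S, w x y * ((g x ^ 2 * h x - g y ^ 2 * h y) * (h x - h y)) =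
        ∑ x ∈ S, ∑ y ∈ S, w x y * (g x ^ 2 * h x * (h x - h y)) -
        ∑ x ∈ S, ∑ y ∈ S, w x y * (g y ^ 2 * h y * (h x - h y)) := by
      rw [← Finset.sum_sub_distrib]
      refine Finset.sum_congr rfl (fun x _ => ?_)
      rw [← Finset.sum_sub_distrib]
      exact Finset.sum_congr rfl (fun y _ => by ring)
    rw [e3, e2, Finset.sum_eq_zero e1, sub_zero]
  have pt : ∀ x ∈ S, ∀ y ∈ S,
      w x y * ((g x ^ 2 + g y ^ 2) / 2 * (h x - h y) ^ 2) ≤
        w x y * ((g x ^ 2 * h x - g y ^ 2 * h y) * (h x - h y)) +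
        (1 / 2) * (w x y * ((g x ^ 2 + g y ^ 2) / 2 * (h x - h y) ^ 2)) +
        2 * M ^ 2 * (w x y * (g x - g y) ^ 2) := by
    intro x hx y hy
    have hw := h0 x y
    have hsum : (h x + h y) ^ 2 ≤ 4 * M ^ 2 := by
      have h1 := hM x hx
      have h2 := hM y hy
      have h3 : |h x + h y| ≤ 2 * M := by
        calc |h x + h y| ≤ |h x| + |h y| := abs_add_le _ _
          _ ≤ 2 * M := by linarith
      have h4 : (h x + h y) ^ 2 ≤ (2 * M) ^ 2 := by
        rw [← sq_abs (h x + h y)]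
        exact pow_le_pow_left₀ (abs_nonneg _) h3 2
      nlinarith [h4]
    have hq : 0 ≤ (g x - g y) ^ 2 := sq_nonneg _
    have hp : 0 ≤ (g x ^ 2 * h x - g y ^ 2 * h y) * (h x - h y) +
        (1 / 2) * ((g x ^ 2 + g y ^ 2) / 2 * (h x - h y) ^ 2) +
        2 * M ^ 2 * (g x - g y) ^ 2 - (g x ^ 2 + g y ^ 2) / 2 * (h x - h y) ^ 2 := by
      have h5 : (g x - g y) ^ 2 * (h x + h y) ^ 2 ≤ (g x - g y) ^ 2 * (4 * M ^ 2) :=
        mul_le_mul_of_nonneg_left hsum hq
      have h6 : 0 ≤ (1 / 2) * ((g x - g y) * (h x + h y) + (g x + g y) * (h x - h y) / 2) ^ 2 +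
          (g x - g y) ^ 2 * (h x - h y) ^ 2 / 8 := by positivity
      nlinarith [h5, h6]
    nlinarith [mul_nonneg hw hp]
  have hsumle : ∑ x ∈ S, ∑ y ∈ S, w x y * ((g x ^ 2 + g y ^ 2) / 2 * (h x - h y) ^ 2) ≤
      ∑ x ∈ S, ∑ y ∈ S, (w x y * ((g x ^ 2 * h x - g y ^ 2 * h y) * (h x - h y)) +
        (1 / 2) * (w x y * ((g x ^ 2 + g y ^ 2) / 2 * (h x - h y) ^ 2)) +
        2 * M ^ 2 * (w x y * (g x - g y) ^ 2)) :=
    Finset.sum_le_sum (fun x hx => Finset.sum_le_sum (fun y hy => pt x hx y hy))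
  have hsplit : ∑ x ∈ S, ∑ y ∈ S, (w x y * ((g x ^ 2 * h x - g y ^ 2 * h y) * (h x - h y)) +
        (1 / 2) * (w x y * ((g x ^ 2 + g y ^ 2) / 2 * (h x - h y) ^ 2)) +
        2 * M ^ 2 * (w x y * (g x - g y) ^ 2)) =
      ∑ x ∈ S, ∑ y ∈ S, w x y * ((g x ^ 2 * h x - g y ^ 2 * h y) * (h x - h y)) +
      (1 / 2) * ∑ x ∈ S, ∑ y ∈ S, w x y * ((g x ^ 2 + g y ^ 2) / 2 * (h x - h y) ^ 2) +
      2 * M ^ 2 * ∑ x ∈ S, ∑ y ∈ S, w x y * (g x - g y) ^ 2 := by
    rw [Finset.mul_sum, Finset.mul_sum, ← Finset.sum_add_distrib, ← Finset.sum_add_distrib]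
    refine Finset.sum_congr rfl (fun x _ => ?_)
    rw [Finset.mul_sum, Finset.mul_sum, ← Finset.sum_add_distrib, ← Finset.sum_add_distrib]
  rw [hsplit, key] at hsumle
  linarith

/-- Time-dependent form of the Dirichlet principle: `u n x` is the probability that the walk
on the network `w` on `S`, started in `x`, has left `B` after at most `n` steps without
having visited `A` (at a time `≥ 0`); the sum over `A` of degree times escape probability is
at most the energy of every `g` with `g = 1` on `A`, `g = 0` off `B`. -/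
theorem escape_le {V : Type*} [DecidableEq V] (S B A : Finset V) (hAB : A ⊆ B) (hBS : B ⊆ S)
    (w : V → V → ℝ) (hs : ∀ x y, w x y = w y x) (h0 : ∀ x y, 0 ≤ w x y)
    (u : ℕ → V → ℝ) (u0 : ∀ x, u 0 x = if x ∈ B then 0 else 1)
    (uA : ∀ n x, x ∈ A → u (n + 1) x = 0) (uB : ∀ n x, x ∉ B → u (n + 1) x = 1)
    (uS : ∀ n x, x ∈ B → x ∉ A →
      u (n + 1) x = (∑ y ∈ S, w x y * u n y) / (∑ y ∈ S, w x y))
    (g : V → ℝ) (g0 : ∀ x, 0 ≤ g x) (gA : ∀ x ∈ A, g x = 1) (gB : ∀ x, x ∉ B → g x = 0)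
    (n : ℕ) :
    ∑ x ∈ A, ∑ y ∈ S, w x y * u n y ≤
      (1 / 2) * ∑ x ∈ S, ∑ y ∈ S, w x y * (g x - g y) ^ 2 := by
  set deg : V → ℝ := fun x => ∑ y ∈ S, w x y with hdeg
  have hdeg0 : ∀ x, 0 ≤ deg x := fun x => Finset.sum_nonneg (fun y _ => h0 x y)
  -- basic facts on `u`
  have vA : ∀ n x, x ∈ A → u n x = 0 := by
    intro n x hx
    cases n with
    | zero => rw [u0, if_pos (hAB hx)]
    | succ n => exact uA n x hx
  have vB : ∀ n x, x ∉ B → u n x = 1 := by
    intro n x hx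
    cases n with
    | zero => rw [u0, if_neg hx]
    | succ n => exact uB n x hx
  have vI : ∀ n x, 0 ≤ u n x ∧ u n x ≤ 1 := by
    intro n
    induction n with
    | zero =>
      intro x
      rw [u0]
      split_ifs <;> norm_num
    | succ n ih =>
      intro x
      by_cases hB : x ∈ B
      · by_cases hA : x ∈ A
        · rw [uA n x hA]; norm_num
        · rw [uS n x hB hA]
          constructor
          · exact div_nonneg (Finset.sum_nonneg (fun y _ => mul_nonneg (h0 x y) (ih y).1))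
              (hdeg0 x)
          · apply div_le_one_of_le₀ _ (hdeg0 x)
            apply Finset.sum_le_sum
            intro y _
            calc w x y * u n y ≤ w x y * 1 := mul_le_mul_of_nonneg_left (ih y).2 (h0 x y)
              _ = w x y := mul_one _
      · rw [uB n x hB]; norm_num
  have vM : ∀ n x, u n x ≤ u (n + 1) x := by
    intro n
    induction n with
    | zero =>
      intro x
      by_cases hB : x ∈ B
      · rw [u0, if_pos hB]; exact (vI 1 x).1
      · rw [uB 0 x hB]; exact (vI 0 x).2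
    | succ n ih =>
      intro x
      by_cases hB : x ∈ B
      · by_cases hA : x ∈ A
        · rw [uA n x hA, uA (n + 1) x hA]
        · rw [uS n x hB hA, uS (n + 1) x hB hA]
          apply div_le_div_of_nonneg_right _ (hdeg0 x)
          apply Finset.sum_le_sum
          intro y _
          exact mul_le_mul_of_nonneg_left (ih y) (h0 x y)
      · rw [uB n x hB, uB (n + 1) x hB]
  -- Laplacian
  have lap : ∀ n x, x ∈ B → x ∉ A →
      ∑ y ∈ S, w x y * (u n x - u n y) = - (deg x * (u (n + 1) x - u n x)) := by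
    intro n x hB hA
    have h1 : ∑ y ∈ S, w x y * (u n x - u n y) = deg x * u n x - ∑ y ∈ S, w x y * u n y := by
      rw [hdeg, Finset.sum_mul, ← Finset.sum_sub_distrib]
      exact Finset.sum_congr rfl (fun y _ => by ring)
    by_cases hd : deg x = 0
    · have h2 : ∀ y ∈ S, w x y = 0 := by
        have := (Finset.sum_eq_zero_iff_of_nonneg (fun y _ => h0 x y)).1 hd
        exact this
      rw [h1, hd, Finset.sum_eq_zero (fun y hy => by rw [h2 y hy, zero_mul])]
      ring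
    · have h2 : deg x * u (n + 1) x = ∑ y ∈ S, w x y * u n y := by
        rw [uS n x hB hA]
        exact mul_div_cancel₀ _ hd
      rw [h1, ← h2]
      ring
  have lapA : ∀ n x, x ∈ A → ∑ y ∈ S, w x y * (u n x - u n y) = - ∑ y ∈ S, w x y * u n y := by
    intro n x hA
    rw [← Finset.sum_neg_distrib]
    exact Finset.sum_congr rfl (fun y _ => by rw [vA n x hA]; ring)
  -- Green
  have green : ∀ n (f : V → ℝ), (∀ x, x ∉ B → f x = 0) → (∀ x ∈ A, f x = 1) →
      (1 / 2) * ∑ x ∈ S, ∑ y ∈ S, w x y * ((u n x - u n y) * (f x - f y)) =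
        - ∑ x ∈ A, ∑ y ∈ S, w x y * u n y -
          ∑ x ∈ B \ A, f x * (deg x * (u (n + 1) x - u n x)) := by
    intro n f fB fA
    have h1 : ∑ x ∈ S, ∑ y ∈ S, w x y * ((u n x - u n y) * (f x - f y)) =
        ∑ x ∈ S, ∑ y ∈ S, w x y * ((u n x - u n y) * f x) -
        ∑ x ∈ S, ∑ y ∈ S, w x y * ((u n x - u n y) * f y) := by
      rw [← Finset.sum_sub_distrib]
      refine Finset.sum_congr rfl (fun x _ => ?_)
      rw [← Finset.sum_sub_distrib]
      exact Finset.sum_congr rfl (fun y _ => by ring)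
    have h2 : ∑ x ∈ S, ∑ y ∈ S, w x y * ((u n x - u n y) * f y) =
        - ∑ x ∈ S, ∑ y ∈ S, w x y * ((u n x - u n y) * f x) := by
      rw [Finset.sum_comm, ← Finset.sum_neg_distrib]
      refine Finset.sum_congr rfl (fun x _ => ?_)
      rw [← Finset.sum_neg_distrib]
      exact Finset.sum_congr rfl (fun y _ => by rw [hs y x]; ring)
    have h3 : ∑ x ∈ S, ∑ y ∈ S, w x y * ((u n x - u n y) * f x) =
        ∑ x ∈ S, f x * ∑ y ∈ S, w x y * (u n x - u n y) := by
      refine Finset.sum_congr rfl (fun x _ => ?_)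
      rw [Finset.mul_sum]
      exact Finset.sum_congr rfl (fun y _ => by ring)
    have h4 : ∑ x ∈ S, f x * ∑ y ∈ S, w x y * (u n x - u n y) =
        ∑ x ∈ B, f x * ∑ y ∈ S, w x y * (u n x - u n y) := by
      symm
      apply Finset.sum_subset hBS
      intro x _ hx
      rw [fB x hx, zero_mul]
    have h5 : ∑ x ∈ B, f x * ∑ y ∈ S, w x y * (u n x - u n y) =
        ∑ x ∈ A, f x * ∑ y ∈ S, w x y * (u n x - u n y) +
        ∑ x ∈ B \ A, f x * ∑ y ∈ S, w x y * (u n x - u n y) := by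
      rw [add_comm]
      exact (Finset.sum_sdiff hAB).symm
    have h6 : ∑ x ∈ A, f x * ∑ y ∈ S, w x y * (u n x - u n y) =
        - ∑ x ∈ A, ∑ y ∈ S, w x y * u n y := by
      rw [← Finset.sum_neg_distrib]
      refine Finset.sum_congr rfl (fun x hx => ?_)
      rw [fA x hx, one_mul, lapA n x hx]
    have h7 : ∑ x ∈ B \ A, f x * ∑ y ∈ S, w x y * (u n x - u n y) =
        - ∑ x ∈ B \ A, f x * (deg x * (u (n + 1) x - u n x)) := by
      rw [← Finset.sum_neg_distrib]
      refine Finset.sum_congr rfl (fun x hx => ?_)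
      rw [Finset.mem_sdiff] at hx
      rw [lap n x hx.1 hx.2]
      ring
    rw [h1, h2, h3, h4, h5, h6, h7]
    ring
  -- the defect
  have main : ∀ m, ∑ x ∈ A, ∑ y ∈ S, w x y * u m y ≤
      (∑ x ∈ B \ A, deg x * (u (m + 1) x - u m x)) +
      (1 / 2) * ∑ x ∈ S, ∑ y ∈ S, w x y * (g x - g y) ^ 2 := by
    intro m
    have hg := green m g gB gA
    have hu := green m (fun x => 1 - u m x) (fun x hx => by simp [vB m x hx])
      (fun x hx => by simp [vA m x hx])
    have hpos : 0 ≤ ∑ x ∈ B \ A, g x * (deg x * (u (m + 1) x - u m x)) :=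
      Finset.sum_nonneg (fun x _ => mul_nonneg (g0 x)
        (mul_nonneg (hdeg0 x) (sub_nonneg.2 (vM m x))))
    have hle : ∑ x ∈ B \ A, (1 - u m x) * (deg x * (u (m + 1) x - u m x)) ≤
        ∑ x ∈ B \ A, deg x * (u (m + 1) x - u m x) := by
      apply Finset.sum_le_sum
      intro x _
      have h1 : 0 ≤ deg x * (u (m + 1) x - u m x) :=
        mul_nonneg (hdeg0 x) (sub_nonneg.2 (vM m x))
      have h2 := (vI m x).1
      nlinarith [mul_nonneg h2 h1]
    have hcs : - ∑ x ∈ S, ∑ y ∈ S, w x y * ((u m x - u m y) * (g x - g y)) ≤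
        - (1 / 2) * ∑ x ∈ S, ∑ y ∈ S,
          w x y * ((u m x - u m y) * ((1 - u m x) - (1 - u m y))) +
        (1 / 2) * ∑ x ∈ S, ∑ y ∈ S, w x y * (g x - g y) ^ 2 := by
      rw [← Finset.sum_neg_distrib, Finset.mul_sum, Finset.mul_sum, ← Finset.sum_add_distrib]
      apply Finset.sum_le_sum
      intro x _
      rw [← Finset.sum_neg_distrib, Finset.mul_sum, Finset.mul_sum, ← Finset.sum_add_distrib]
      apply Finset.sum_le_sum
      intro y _
      have h1 := h0 x y
      have h2 : 0 ≤ ((u m x - u m y) + (g x - g y)) ^ 2 := sq_nonneg _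
      nlinarith [mul_nonneg h1 h2]
    beta_reduce at hu
    linarith
  -- monotonicity in time
  have mono : ∀ m k, ∑ x ∈ A, ∑ y ∈ S, w x y * u m y ≤
      ∑ x ∈ A, ∑ y ∈ S, w x y * u (m + k) y := by
    intro m k
    have hv : ∀ k y, u m y ≤ u (m + k) y := by
      intro k
      induction k with
      | zero => intro y; exact le_rfl
      | succ k ih => intro y; exact (ih y).trans (vM (m + k) y)
    exact Finset.sum_le_sum (fun x _ => Finset.sum_le_sum (fun y _ =>
      mul_le_mul_of_nonneg_left (hv k y) (h0 x y)))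
  -- the defects are summable
  by_contra hcon
  push Not at hcon
  set C := ∑ x ∈ A, ∑ y ∈ S, w x y * u n y with hC
  set Eg := (1 / 2) * ∑ x ∈ S, ∑ y ∈ S, w x y * (g x - g y) ^ 2 with hEg
  set e := C - Eg with he
  have hepos : 0 < e := by rw [he]; linarith
  have hdef : ∀ k, e ≤ ∑ x ∈ B \ A, deg x * (u (n + k + 1) x - u (n + k) x) := by
    intro k
    have h1 := main (n + k)
    have h2 := mono n k
    rw [he]
    linarith
  have htel : ∀ K : ℕ, ∑ k ∈ Finset.range K,
      ∑ x ∈ B \ A, deg x * (u (n + k + 1) x - u (n + k) x) ≤ ∑ x ∈ B \ A, deg x := by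
    intro K
    rw [Finset.sum_comm]
    apply Finset.sum_le_sum
    intro x _
    rw [← Finset.mul_sum]
    have h1 : ∑ k ∈ Finset.range K, (u (n + k + 1) x - u (n + k) x) = u (n + K) x - u n x := by
      have := Finset.sum_range_sub (fun k => u (n + k) x) K
      simpa [add_assoc] using this
    rw [h1]
    have h2 := (vI (n + K) x).2
    have h3 := (vI n x).1
    nlinarith [mul_nonneg (hdeg0 x) (show 0 ≤ 1 - (u (n + K) x - u n x) by linarith)]
  obtain ⟨K, hK⟩ := exists_nat_gt ((∑ x ∈ B \ A, deg x) / e)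
  have h1 : (K : ℝ) * e ≤ ∑ x ∈ B \ A, deg x := by
    calc (K : ℝ) * e = ∑ _k ∈ Finset.range K, e := by
          rw [Finset.sum_const, Finset.card_range, nsmul_eq_mul]
      _ ≤ ∑ k ∈ Finset.range K, ∑ x ∈ B \ A, deg x * (u (n + k + 1) x - u (n + k) x) :=
          Finset.sum_le_sum (fun k _ => hdef k)
      _ ≤ _ := htel K
  rw [div_lt_iff₀ hepos] at hK
  linarith

end Vale.Agent.P015.R2.H376
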