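import Vale.Agent.P015.R2.H376.Cond

namespace Vale.Agent.P015.R2.H376

open Finset Filter Topology

/-- The energy of `capFun`. -/
theorem cap_core {D L R N : ℝ} (hD : 1 ≤ D) (_hL0 : 0 ≤ L) (h8 : 8 * L < R) (hR5 : 2 * D ≤ R)
    (z₀ : ℂ) (hN : ∀ X : Finset {z : GaussianInt // Prime z},
      (∀ z ∈ X, dist (GaussianInt.toComplex z) z₀ ≤ R ∧ ∃ w, (moatGraph D).Reachable z w ∧
        L < dist (GaussianInt.toComplex z) (GaussianInt.toComplex w)) → (X.card : ℝ) ≤ N) :
    IsCap D R (N * ((((2 * ⌊D⌋₊ + 1) ^ 2 : ℕ) : ℝ) * (16 * D ^ 2 / R ^ 2))) z₀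
      (capFun D L R z₀) := by
  classical
  have hR0 : 0 < R := by linarith
  set g := capFun D L R z₀ with hg
  -- the small components that come near `z₀` stay near
  have hnear : ∀ x : {z : GaussianInt // Prime z}, Small D L x →
      ∀ y : {z : GaussianInt // Prime z}, (moatGraph D).Reachable x y →
      dist (GaussianInt.toComplex y) z₀ ≤ R / 4 → dist (GaussianInt.toComplex x) z₀ < R / 2 := by
    rintro x ⟨v, hv1, hv2⟩ y hy1 hy2
    have h4 := hv2 x hv1.symm
    have h5 := hv2 y (hv1.symm.trans hy1)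
    have h6 := dist_triangle (GaussianInt.toComplex x) (GaussianInt.toComplex v) z₀
    have h7 := dist_triangle (GaussianInt.toComplex v) (GaussianInt.toComplex y) z₀
    rw [dist_comm (GaussianInt.toComplex x) (GaussianInt.toComplex v)] at h6
    linarith
  refine ⟨?_, ?_, ?_, ?_⟩
  · intro x
    rw [hg, capFun]
    split_ifs
    · norm_num
    · norm_num
    · exact ⟨le_max_left _ _, max_le zero_le_one (min_le_left _ _)⟩
  · intro x hx
    rw [hg, capFun]
    by_cases hs : Small D L x
    · rw [if_pos hs, if_pos ⟨x, SimpleGraph.Reachable.refl x, hx⟩]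
    · rw [if_neg hs]
      have h4 : 1 ≤ 2 - 4 * dist (GaussianInt.toComplex x) z₀ / R := by
        have : 4 * dist (GaussianInt.toComplex x) z₀ / R ≤ 1 := by
          rw [div_le_one hR0]; linarith
        linarith
      rw [min_eq_left h4, max_eq_right zero_le_one]
  · intro x hx
    rw [hg, capFun]
    by_cases hs : Small D L x
    · rw [if_pos hs, if_neg]
      rintro ⟨y, hy1, hy2⟩
      exact absurd (hnear x hs y hy1 hy2) (not_lt.2 hx)
    · rw [if_neg hs]
      have h4 : 2 - 4 * dist (GaussianInt.toComplex x) z₀ / R ≤ 0 := by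
        have : 2 ≤ 4 * dist (GaussianInt.toComplex x) z₀ / R := by
          rw [le_div_iff₀ hR0]; linarith
        linarith
      exact max_eq_left ((min_le_right _ _).trans h4)
  · intro S
    -- only bad vertices in the disc contribute
    set X : Finset {z : GaussianInt // Prime z} := S.filter
      (fun x : {z : GaussianInt // Prime z} => dist (GaussianInt.toComplex x) z₀ ≤ R ∧
        ¬ Small D L x) with hX
    have hXcard : (X.card : ℝ) ≤ N := by
      apply hN X
      intro z hz
      rw [hX, Finset.mem_filter] at hz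
      refine ⟨hz.2.1, ?_⟩
      have h4 := hz.2.2
      by_contra hcon
      push Not at hcon
      exact h4 ⟨z, SimpleGraph.Reachable.refl z, fun w hw => hcon w hw⟩
    have hterm : ∀ x ∈ S, ∑ y ∈ S, (if (moatGraph D).Adj x y then (g x - g y) ^ 2 else 0) ≤
        if x ∈ X then (((2 * ⌊D⌋₊ + 1) ^ 2 : ℕ) : ℝ) * (16 * D ^ 2 / R ^ 2) else 0 := by
      intro x hx
      have hzero : ∀ y, (moatGraph D).Adj x y → x ∉ X → g x = g y := by
        intro y hxy hxX
        by_cases hs : Small D L x
        · have hs' : Small D L y := (small_congr hxy.reachable).1 hs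
          rw [hg, capFun, capFun, if_pos hs, if_pos hs']
          have h5 : (∃ z, (moatGraph D).Reachable x z ∧ dist (GaussianInt.toComplex z) z₀ ≤ R / 4) ↔
              (∃ z, (moatGraph D).Reachable y z ∧ dist (GaussianInt.toComplex z) z₀ ≤ R / 4) :=
            ⟨fun ⟨z, h1, h2⟩ => ⟨z, hxy.reachable.symm.trans h1, h2⟩,
              fun ⟨z, h1, h2⟩ => ⟨z, hxy.reachable.trans h1, h2⟩⟩
          simp only [h5]
        · have hs' : ¬ Small D L y := fun h => hs ((small_congr hxy.reachable).2 h)
          have hfar : R < dist (GaussianInt.toComplex x) z₀ := by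
            by_contra hcon
            push Not at hcon
            apply hxX
            rw [hX, Finset.mem_filter]
            exact ⟨hx, hcon, hs⟩
          have h6 : dist (GaussianInt.toComplex x) (GaussianInt.toComplex y) ≤ D := hxy.2
          have h7 := dist_triangle (GaussianInt.toComplex x) (GaussianInt.toComplex y) z₀
          have z1 : ∀ u : {z : GaussianInt // Prime z}, ¬ Small D L u →
              R / 2 ≤ dist (GaussianInt.toComplex u) z₀ → g u = 0 := by
            intro u hu hur
            rw [hg, capFun, if_neg hu]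
            have h4 : 2 - 4 * dist (GaussianInt.toComplex u) z₀ / R ≤ 0 := by
              have : 2 ≤ 4 * dist (GaussianInt.toComplex u) z₀ / R := by
                rw [le_div_iff₀ hR0]; linarith
              linarith
            exact max_eq_left ((min_le_right _ _).trans h4)
          rw [z1 x hs (by linarith), z1 y hs' (by linarith)]
      by_cases hxX : x ∈ X
      · rw [if_pos hxX]
        have hs : ¬ Small D L x := by
          rw [hX, Finset.mem_filter] at hxX
          exact hxX.2.2
        have hb : ∀ y, (moatGraph D).Adj x y → (g x - g y) ^ 2 ≤ 16 * D ^ 2 / R ^ 2 := by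
          intro y hxy
          have hs' : ¬ Small D L y := fun h => hs ((small_congr hxy.reachable).2 h)
          have h6 : dist (GaussianInt.toComplex x) (GaussianInt.toComplex y) ≤ D := hxy.2
          have h7 : |g x - g y| ≤ 4 * |dist (GaussianInt.toComplex x) z₀ -
              dist (GaussianInt.toComplex y) z₀| / R := by
            rw [hg, capFun, capFun, if_neg hs, if_neg hs']
            exact capFun_lip hR0
          have h8 : |dist (GaussianInt.toComplex x) z₀ - dist (GaussianInt.toComplex y) z₀| ≤ D :=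
            (abs_dist_sub_le _ _ _).trans h6
          have h9 : |g x - g y| ≤ 4 * D / R := by
            refine h7.trans ?_
            apply div_le_div_of_nonneg_right _ hR0.le
            linarith
          rw [← sq_abs]
          calc |g x - g y| ^ 2 ≤ (4 * D / R) ^ 2 := pow_le_pow_left₀ (abs_nonneg _) h9 2
            _ = 16 * D ^ 2 / R ^ 2 := by ring
        have hD2 : 0 ≤ 16 * D ^ 2 / R ^ 2 := by positivity
        calc ∑ y ∈ S, (if (moatGraph D).Adj x y then (g x - g y) ^ 2 else 0)
            ≤ ∑ y ∈ S, (if y ∈ nbrs D x then 16 * D ^ 2 / R ^ 2 else 0) := by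
              apply Finset.sum_le_sum
              intro y _
              by_cases hxy : (moatGraph D).Adj x y
              · rw [if_pos hxy, if_pos (mem_nbrs.2 hxy)]
                exact hb y hxy
              · rw [if_neg hxy]
                split_ifs
                · exact hD2
                · exact le_rfl
          _ = ((S.filter (fun y => y ∈ nbrs D x)).card : ℝ) * (16 * D ^ 2 / R ^ 2) := by
              rw [← Finset.sum_filter, Finset.sum_const, nsmul_eq_mul]
          _ ≤ ((nbrs D x).card : ℝ) * (16 * D ^ 2 / R ^ 2) := by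
              apply mul_le_mul_of_nonneg_right _ hD2
              have : (S.filter (fun y => y ∈ nbrs D x)).card ≤ (nbrs D x).card := by
                apply Finset.card_le_card
                intro y hy
                exact (Finset.mem_filter.1 hy).2
              exact_mod_cast this
          _ ≤ _ := mul_le_mul_of_nonneg_right (card_nbrs_le D x) hD2
      · rw [if_neg hxX]
        apply le_of_eq
        apply Finset.sum_eq_zero
        intro y _
        by_cases hxy : (moatGraph D).Adj x y
        · rw [if_pos hxy, hzero y hxy hxX]; ring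
        · rw [if_neg hxy]
    have hXS : X ⊆ S := Finset.filter_subset _ _
    calc ∑ x ∈ S, ∑ y ∈ S, (if (moatGraph D).Adj x y then (g x - g y) ^ 2 else 0)
        ≤ ∑ x ∈ S, (if x ∈ X then (((2 * ⌊D⌋₊ + 1) ^ 2 : ℕ) : ℝ) * (16 * D ^ 2 / R ^ 2) else 0) :=
          Finset.sum_le_sum hterm
      _ = (X.card : ℝ) * ((((2 * ⌊D⌋₊ + 1) ^ 2 : ℕ) : ℝ) * (16 * D ^ 2 / R ^ 2)) := by
          rw [← Finset.sum_filter, Finset.sum_const, nsmul_eq_mul]
          congr 2
          congr 1
          ext y
          rw [Finset.mem_filter]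
          exact ⟨fun h => h.2, fun h => ⟨hXS h, h⟩⟩
      _ ≤ N * ((((2 * ⌊D⌋₊ + 1) ^ 2 : ℕ) : ℝ) * (16 * D ^ 2 / R ^ 2)) := by
          apply mul_le_mul_of_nonneg_right hXcard
          positivity

theorem IsCap.mono {D R η η' : ℝ} {z₀ : ℂ} {g : {z : GaussianInt // Prime z} → ℝ}
    (hg : IsCap D R η z₀ g) (h : η ≤ η') : IsCap D R η' z₀ g :=
  ⟨hg.1, hg.2.1, hg.2.2.1, fun S => (hg.2.2.2 S).trans h⟩

/-- Small capacities, uniformly in `D`. -/
theorem capacity_uniform : ∃ C : ℝ, 0 < C ∧ ∀ D : ℝ, 1 ≤ D → ∀ k : ℕ, 2 ≤ k → ∀ R : ℝ,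
    Real.exp (C * D ^ C * (k * Real.log k)) ≤ R → ∀ z₀ : ℂ,
    ∃ g : {z : GaussianInt // Prime z} → ℝ, IsCap D R (3600 * D ^ 4 * Real.exp (-k)) z₀ g := by
  obtain ⟨C₀, hC₀, hcount⟩ := disc_count
  refine ⟨max C₀ 20, lt_of_lt_of_le hC₀ (le_max_left _ _), ?_⟩
  intro D hD k hk R hR z₀
  set C := max C₀ 20 with hC
  have hC20 : 20 ≤ C := le_max_right _ _
  have hCC : C₀ ≤ C := le_max_left _ _
  have hk2 : (2 : ℝ) ≤ k := by exact_mod_cast hk
  have hlog2 : (0.69 : ℝ) < Real.log 2 := by
    have := Real.log_two_gt_d9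
    linarith
  have hlogk : Real.log 2 ≤ Real.log k := Real.log_le_log (by norm_num) hk2
  have hklog : 0 < (k : ℝ) * Real.log k := by
    have : 0 < Real.log k := by linarith
    positivity
  have hDC : D ≤ D ^ C := by
    have := Real.rpow_le_rpow_of_exponent_le hD (show (1 : ℝ) ≤ C by linarith)
    rwa [Real.rpow_one] at this
  have hDC0 : D ^ C₀ ≤ D ^ C := Real.rpow_le_rpow_of_exponent_le hD hCC
  have hDC0p : 0 < D ^ C₀ := Real.rpow_pos_of_pos (by linarith) _
  have hbase : 20 * D * (k * Real.log k) ≤ C * D ^ C * (k * Real.log k) := by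
    apply mul_le_mul_of_nonneg_right _ hklog.le
    apply mul_le_mul hC20 hDC (by linarith) (by linarith)
  have hexp : 20 * D * (k * Real.log k) + 1 ≤ R :=
    le_trans (le_trans (by linarith) (Real.add_one_le_exp _)) hR
  have hDk : 0.69 * (D * k) ≤ D * (k * Real.log k) := by
    have h1 : (0.69 : ℝ) ≤ Real.log k := by linarith
    have h2 : 0 < D * k := by positivity
    nlinarith
  have hDk2 : 2 * D ≤ D * k := by nlinarith
  have h8 : 8 * (k * D) < R := by nlinarith
  have h2D : 2 * D ≤ R := by nlinarith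
  have hR1 : 1 ≤ R := by nlinarith
  have hR0 : 0 < R := by linarith
  have hR' : Real.exp (C₀ * D ^ C₀ * (k * Real.log k)) ≤ R := by
    refine le_trans (Real.exp_le_exp.2 ?_) hR
    apply mul_le_mul_of_nonneg_right _ hklog.le
    exact mul_le_mul hCC hDC0 hDC0p.le (by linarith)
  refine ⟨capFun D (k * D) R z₀, (cap_core hD (by positivity) h8 h2D z₀
    (N := 25 * R ^ 2 * Real.exp (-k)) ?_).mono ?_⟩
  · intro X hX
    apply hcount D hD k hk R hR1 hR' z₀ X
    intro z hz
    obtain ⟨h1, w, ⟨p⟩, h2⟩ := hX z hz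
    exact ⟨h1, startsPath_of_far (by linarith) (by omega) p h2.le⟩
  · have hfl : (⌊D⌋₊ : ℝ) ≤ D := Nat.floor_le (by linarith)
    have h1 : (((2 * ⌊D⌋₊ + 1) ^ 2 : ℕ) : ℝ) ≤ 9 * D ^ 2 := by
      push_cast
      have h2 : 2 * (⌊D⌋₊ : ℝ) + 1 ≤ 3 * D := by linarith
      calc (2 * (⌊D⌋₊ : ℝ) + 1) ^ 2 ≤ (3 * D) ^ 2 := pow_le_pow_left₀ (by positivity) h2 2
        _ = 9 * D ^ 2 := by ring
    have h3 : 0 ≤ 25 * R ^ 2 * Real.exp (-(k : ℝ)) := by positivity
    calc 25 * R ^ 2 * Real.exp (-(k : ℝ)) * ((((2 * ⌊D⌋₊ + 1) ^ 2 : ℕ) : ℝ) * (16 * D ^ 2 / R ^ 2))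
        ≤ 25 * R ^ 2 * Real.exp (-(k : ℝ)) * ((9 * D ^ 2) * (16 * D ^ 2 / R ^ 2)) := by
          apply mul_le_mul_of_nonneg_left _ h3
          exact mul_le_mul_of_nonneg_right h1 (by positivity)
      _ = 3600 * D ^ 4 * Real.exp (-(k : ℝ)) := by
          field_simp
          ring

end Vale.Agent.P015.R2.H376
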