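import Vale.Agent.P015.Defs

namespace Vale.Agent.P015.Walks

/-- Conductances on the edges of `G_D`: a symmetric function with values in `[0, 1]` on pairs of
Gaussian primes which is zero on the pairs that are not edges of `G_D`. (The simple random walk on
`G_D` is the case where all edges have conductance `1`.) -/
def IsConductance (D : ℝ)
    (κ : {z : GaussianInt // Prime z} → {z : GaussianInt // Prime z} → ℝ) : Prop :=
  (∀ x y, κ x y = κ y x) ∧ (∀ x y, 0 ≤ κ x y ∧ κ x y ≤ 1) ∧
    ∀ x y, ¬ (moatGraph D).Adj x y → κ x y = 0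

open Classical in
/-- The random walk with conductances `κ` goes from `x` to `y` with probability
`κ x y / ∑ y, κ x y`. `escapeProb κ A z₀ R n x` is the probability that the walk started at `x`
is outside the disc `|z - z₀| ≤ R` at one of the times `0, ..., n` and has not visited `A` before
(at the times `≥ 0`; a vertex at which all conductances are `0` is never left). -/
noncomputable def escapeProb
    (κ : {z : GaussianInt // Prime z} → {z : GaussianInt // Prime z} → ℝ)
    (A : Finset {z : GaussianInt // Prime z}) (z₀ : ℂ) (R : ℝ) :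
    ℕ → {z : GaussianInt // Prime z} → ℝ
  | 0, x => if dist (GaussianInt.toComplex x) z₀ ≤ R then 0 else 1
  | n + 1, x => if x ∈ A then 0 else
      if dist (GaussianInt.toComplex x) z₀ ≤ R then
        (∑ᶠ y, κ x y * escapeProb κ A z₀ R n y) / (∑ᶠ y, κ x y) else 1

open Classical in
/-- `g` has values in `[0, 1]`, is `1` on the Gaussian primes within `R / 4` of `z₀` and `0` on
those at distance at least `R / 2` from `z₀`, and its Dirichlet energy on `G_D` (the sum of
`(g x - g y) ^ 2` over all edges, each edge counted twice) is at most `η`. -/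
def IsCutoff (D R η : ℝ) (z₀ : ℂ) (g : {z : GaussianInt // Prime z} → ℝ) : Prop :=
  (∀ z, 0 ≤ g z ∧ g z ≤ 1) ∧
  (∀ z : {z : GaussianInt // Prime z}, dist (GaussianInt.toComplex z) z₀ ≤ R / 4 → g z = 1) ∧
  (∀ z : {z : GaussianInt // Prime z}, R / 2 ≤ dist (GaussianInt.toComplex z) z₀ → g z = 0) ∧
  ∀ S : Finset {z : GaussianInt // Prime z},
    ∑ x ∈ S, ∑ y ∈ S, (if (moatGraph D).Adj x y then (g x - g y) ^ 2 else 0) ≤ η

end Vale.Agent.P015.Walks
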