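import Vale.Agent.P015.R2.H376.WDefs

namespace Vale.Agent.P015.Walks

/-- Conductances for walks with growing steps: a symmetric function with values in `[0, 1]` on
pairs of Gaussian primes which is zero unless the two primes `x ≠ y` are at distance at most
`(log (|x| + |y| + 16)) ^ c`. -/
def IsGrowingConductance (c : ℝ)
    (κ : {z : GaussianInt // Prime z} → {z : GaussianInt // Prime z} → ℝ) : Prop :=
  (∀ x y, κ x y = κ y x) ∧ (∀ x y, 0 ≤ κ x y ∧ κ x y ≤ 1) ∧
    ∀ x y, κ x y ≠ 0 → x ≠ y ∧
      dist (GaussianInt.toComplex x) (GaussianInt.toComplex y) ≤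
        Real.log (‖GaussianInt.toComplex x‖ + ‖GaussianInt.toComplex y‖ + 16) ^ c

end Vale.Agent.P015.Walks
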