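import Vale.Agent.P015.Bdl.B1
import Vale.Agent.P015.R2.H376.Net

namespace Vale.Agent.P015.R2.H376

open Finset Filter Topology

theorem finite_nbrs (D : ℝ) (x : {z : GaussianInt // Prime z}) :
    {y : {z : GaussianInt // Prime z} | (moatGraph D).Adj x y}.Finite := by
  refine (finite_norm_le (‖GaussianInt.toComplex x‖ + D)).subset ?_
  intro y hy
  have h1 : dist (GaussianInt.toComplex x) (GaussianInt.toComplex y) ≤ D := hy.2
  have h2 := norm_le_add_dist x.1 y.1
  exact h2.trans (by linarith)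

/-- The neighbours of `x` in `G_D`. -/
noncomputable def nbrs (D : ℝ) (x : {z : GaussianInt // Prime z}) :
    Finset {z : GaussianInt // Prime z} := (finite_nbrs D x).toFinset

theorem mem_nbrs {D : ℝ} {x y : {z : GaussianInt // Prime z}} :
    y ∈ nbrs D x ↔ (moatGraph D).Adj x y := by
  rw [nbrs, Set.Finite.mem_toFinset]
  rfl

open Classical in
/-- The probability that the simple random walk on `G_D` started at `x` leaves the disc
`|z - z₀| ≤ R` after at most `n` steps, before its first visit (at a time `≥ 0`) to `A`. -/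
noncomputable def exitProb (D : ℝ) (A : Set {z : GaussianInt // Prime z}) (z₀ : ℂ) (R : ℝ) :
    ℕ → {z : GaussianInt // Prime z} → ℝ
  | 0, x => if dist (GaussianInt.toComplex x) z₀ ≤ R then 0 else 1
  | n + 1, x => if x ∈ A then 0 else
      if dist (GaussianInt.toComplex x) z₀ ≤ R then
        (∑ y ∈ nbrs D x, exitProb D A z₀ R n y) / ((nbrs D x).card : ℝ) else 1

open Classical in
/-- `g` is equal to `1` within `R / 4` of `z₀`, to `0` outside `R / 2`, and has Dirichlet energy
at most `η` on `G_D` (each edge counted twice). -/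
def IsCap (D R η : ℝ) (z₀ : ℂ) (g : {z : GaussianInt // Prime z} → ℝ) : Prop :=
  (∀ z, 0 ≤ g z ∧ g z ≤ 1) ∧
  (∀ z : {z : GaussianInt // Prime z}, dist (GaussianInt.toComplex z) z₀ ≤ R / 4 → g z = 1) ∧
  (∀ z : {z : GaussianInt // Prime z}, R / 2 ≤ dist (GaussianInt.toComplex z) z₀ → g z = 0) ∧
  ∀ S : Finset {z : GaussianInt // Prime z},
    ∑ x ∈ S, ∑ y ∈ S, (if (moatGraph D).Adj x y then (g x - g y) ^ 2 else 0) ≤ η

theorem finite_disc (z₀ : ℂ) (R : ℝ) :
    {v : {z : GaussianInt // Prime z} | dist (GaussianInt.toComplex v) z₀ ≤ R}.Finite := by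
  refine (finite_norm_le (‖z₀‖ + R)).subset ?_
  intro y hy
  have h1 : dist (GaussianInt.toComplex y) z₀ ≤ R := hy
  have h2 : ‖GaussianInt.toComplex y‖ ≤ ‖z₀‖ + dist (GaussianInt.toComplex y) z₀ := by
    rw [dist_eq_norm]
    have := norm_add_le z₀ (GaussianInt.toComplex y - z₀)
    simpa only [add_sub_cancel] using this
  exact h2.trans (by linarith)

noncomputable def disc (z₀ : ℂ) (R : ℝ) : Finset {z : GaussianInt // Prime z} :=
  (finite_disc z₀ R).toFinset

theorem mem_disc {z₀ : ℂ} {R : ℝ} {x : {z : GaussianInt // Prime z}} :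
    x ∈ disc z₀ R ↔ dist (GaussianInt.toComplex x) z₀ ≤ R := by
  rw [disc, Set.Finite.mem_toFinset]
  rfl

theorem nbrs_subset {D R r : ℝ} {z₀ : ℂ} (h : R + D ≤ r) {x : {z : GaussianInt // Prime z}}
    (hx : x ∈ disc z₀ R) : nbrs D x ⊆ disc z₀ r := by
  intro y hy
  rw [mem_nbrs] at hy
  rw [mem_disc] at hx ⊢
  have h1 : dist (GaussianInt.toComplex x) (GaussianInt.toComplex y) ≤ D := hy.2
  have h2 := dist_triangle (GaussianInt.toComplex y) (GaussianInt.toComplex x) z₀
  rw [dist_comm (GaussianInt.toComplex y) (GaussianInt.toComplex x)] at h2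
  linarith

open Classical in
theorem sum_adj {D R r : ℝ} {z₀ : ℂ} (h : R + D ≤ r) {x : {z : GaussianInt // Prime z}}
    (hx : x ∈ disc z₀ R) (f : {z : GaussianInt // Prime z} → ℝ) :
    ∑ y ∈ disc z₀ r, (if (moatGraph D).Adj x y then (1 : ℝ) else 0) * f y =
      ∑ y ∈ nbrs D x, f y := by
  have h1 : nbrs D x = (disc z₀ r).filter (fun y => (moatGraph D).Adj x y) := by
    ext y
    rw [Finset.mem_filter, mem_nbrs]
    exact ⟨fun hy => ⟨nbrs_subset h hx (mem_nbrs.2 hy), hy⟩, fun hy => hy.2⟩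
  rw [h1, Finset.sum_filter]
  exact Finset.sum_congr rfl (fun y _ => by split_ifs <;> simp)

/-- Exit probabilities from a function of small energy. -/
theorem exit_le {D R η : ℝ} (hR : 0 ≤ R) {z₀ : ℂ} {g : {z : GaussianInt // Prime z} → ℝ}
    (hg : IsCap D R η z₀ g) (A : Finset {z : GaussianInt // Prime z})
    (hA : ∀ x ∈ A, dist (GaussianInt.toComplex x) z₀ ≤ R / 4) (n : ℕ) :
    ∑ x ∈ A, ∑ y ∈ nbrs D x, exitProb D A z₀ R n y ≤ η / 2 := by
  classical
  obtain ⟨g1, g2, g3, g4⟩ := hg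
  have hAB : A ⊆ disc z₀ R := by
    intro x hx
    rw [mem_disc]
    linarith [hA x hx]
  have hBS : disc z₀ R ⊆ disc z₀ (R + |D|) := by
    intro x hx
    rw [mem_disc] at hx ⊢
    linarith [abs_nonneg D]
  have hRD : R + D ≤ R + |D| := by linarith [le_abs_self D]
  have key := escape_le (disc z₀ (R + |D|)) (disc z₀ R) A hAB hBS
    (fun x y => if (moatGraph D).Adj x y then (1 : ℝ) else 0)
    (fun x y => by
      simp only [(moatGraph D).adj_comm x y])
    (fun x y => by split_ifs <;> norm_num)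
    (exitProb D A z₀ R)
    (fun x => by
      rw [exitProb]
      simp only [mem_disc])
    (fun n x hx => by
      rw [exitProb, if_pos (Finset.mem_coe.2 hx)])
    (fun n x hx => by
      have h1 : x ∉ (A : Set {z : GaussianInt // Prime z}) := fun h => hx (hAB (Finset.mem_coe.1 h))
      have h2 : ¬ dist (GaussianInt.toComplex x) z₀ ≤ R := fun h => hx (mem_disc.2 h)
      rw [exitProb, if_neg h1, if_neg h2])
    (fun n x hx hxA => by
      have h1 : x ∉ (A : Set {z : GaussianInt // Prime z}) := fun h => hxA (Finset.mem_coe.1 h)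
      have h2 : dist (GaussianInt.toComplex x) z₀ ≤ R := mem_disc.1 hx
      have h3 : ∑ y ∈ disc z₀ (R + |D|), (if (moatGraph D).Adj x y then (1 : ℝ) else 0) =
          ((nbrs D x).card : ℝ) := by
        have := sum_adj hRD hx (fun _ => (1 : ℝ))
        simpa using this
      rw [exitProb, if_neg h1, if_pos h2, sum_adj hRD hx, h3])
    g (fun x => (g1 x).1) (fun x hx => g2 x (hA x hx))
    (fun x hx => g3 x (by
      have h2 : ¬ dist (GaussianInt.toComplex x) z₀ ≤ R := fun h => hx (mem_disc.2 h)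
      push Not at h2
      linarith))
    n
  have h5 : ∑ x ∈ A, ∑ y ∈ disc z₀ (R + |D|),
      (if (moatGraph D).Adj x y then (1 : ℝ) else 0) * exitProb D A z₀ R n y =
      ∑ x ∈ A, ∑ y ∈ nbrs D x, exitProb D A z₀ R n y :=
    Finset.sum_congr rfl (fun x hx => sum_adj hRD (hAB hx) _)
  have h6 := g4 (disc z₀ (R + |D|))
  have h7 : ∑ x ∈ disc z₀ (R + |D|), ∑ y ∈ disc z₀ (R + |D|),
      (if (moatGraph D).Adj x y then (1 : ℝ) else 0) * (g x - g y) ^ 2 =
      ∑ x ∈ disc z₀ (R + |D|), ∑ y ∈ disc z₀ (R + |D|),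
        (if (moatGraph D).Adj x y then (g x - g y) ^ 2 else 0) :=
    Finset.sum_congr rfl (fun x _ => Finset.sum_congr rfl (fun y _ => by split_ifs <;> simp))
  rw [h5, h7] at key
  linarith

/-- The local form of the Liouville theorem. -/
theorem harmonic_le {D R η M : ℝ} (hRD : 2 * D ≤ R) {z₀ : ℂ}
    {g : {z : GaussianInt // Prime z} → ℝ} (hg : IsCap D R η z₀ g)
    (h : {z : GaussianInt // Prime z} → ℝ)
    (hh : ∀ x : {z : GaussianInt // Prime z}, dist (GaussianInt.toComplex x) z₀ < R →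
      ∑ y ∈ nbrs D x, (h x - h y) = 0)
    (hM : ∀ x : {z : GaussianInt // Prime z}, dist (GaussianInt.toComplex x) z₀ ≤ R → |h x| ≤ M)
    {x y : {z : GaussianInt // Prime z}} (hx : dist (GaussianInt.toComplex x) z₀ ≤ R / 4)
    (hy : dist (GaussianInt.toComplex y) z₀ ≤ R / 4) (hxy : (moatGraph D).Adj x y) :
    (h x - h y) ^ 2 ≤ 4 * M ^ 2 * η := by
  classical
  obtain ⟨g1, g2, g3, g4⟩ := hg
  have hR0 : 0 ≤ R := by
    have := dist_nonneg (x := GaussianInt.toComplex x) (y := z₀)
    linarith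
  have key := caccioppoli (disc z₀ R)
    (fun x y => if (moatGraph D).Adj x y then (1 : ℝ) else 0)
    (fun x y => by simp only [(moatGraph D).adj_comm x y])
    (fun x y => by split_ifs <;> norm_num) g h (M := M)
    (fun x hx => hM x (mem_disc.1 hx))
    (fun x _ hgx => by
      have h1 : dist (GaussianInt.toComplex x) z₀ < R / 2 := by
        by_contra hcon
        push Not at hcon
        exact hgx (g3 x hcon)
      have h2 : x ∈ disc z₀ (R / 2) := mem_disc.2 h1.le
      have h3 := sum_adj (D := D) (r := R) (show R / 2 + D ≤ R by linarith) h2 (fun y => h x - h y)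
      rw [h3]
      exact hh x (by linarith))
  have h4 := g4 (disc z₀ R)
  have h7 : ∑ x ∈ disc z₀ R, ∑ y ∈ disc z₀ R,
      (if (moatGraph D).Adj x y then (1 : ℝ) else 0) * (g x - g y) ^ 2 =
      ∑ x ∈ disc z₀ R, ∑ y ∈ disc z₀ R,
        (if (moatGraph D).Adj x y then (g x - g y) ^ 2 else 0) :=
    Finset.sum_congr rfl (fun x _ => Finset.sum_congr rfl (fun y _ => by split_ifs <;> simp))
  rw [h7] at key
  have hxd : x ∈ disc z₀ R := mem_disc.2 (by linarith)
  have hyd : y ∈ disc z₀ R := mem_disc.2 (by linarith)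
  have hnn : ∀ a b : {z : GaussianInt // Prime z}, 0 ≤ (if (moatGraph D).Adj a b then (1 : ℝ) else 0) *
      ((g a ^ 2 + g b ^ 2) / 2 * (h a - h b) ^ 2) := by
    intro a b
    apply mul_nonneg
    · split_ifs <;> norm_num
    · positivity
  have h8 : (h x - h y) ^ 2 ≤ ∑ x ∈ disc z₀ R, ∑ y ∈ disc z₀ R,
      (if (moatGraph D).Adj x y then (1 : ℝ) else 0) *
        ((g x ^ 2 + g y ^ 2) / 2 * (h x - h y) ^ 2) := by
    calc (h x - h y) ^ 2 = (if (moatGraph D).Adj x y then (1 : ℝ) else 0) *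
          ((g x ^ 2 + g y ^ 2) / 2 * (h x - h y) ^ 2) := by
          rw [if_pos hxy, g2 x hx, g2 y hy]; ring
      _ ≤ ∑ b ∈ disc z₀ R, (if (moatGraph D).Adj x b then (1 : ℝ) else 0) *
          ((g x ^ 2 + g b ^ 2) / 2 * (h x - h b) ^ 2) :=
          Finset.single_le_sum (f := fun b => (if (moatGraph D).Adj x b then (1 : ℝ) else 0) *
            ((g x ^ 2 + g b ^ 2) / 2 * (h x - h b) ^ 2)) (fun b _ => hnn x b) hyd
      _ ≤ _ := Finset.single_le_sum (f := fun a => ∑ b ∈ disc z₀ R,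
            (if (moatGraph D).Adj a b then (1 : ℝ) else 0) *
            ((g a ^ 2 + g b ^ 2) / 2 * (h a - h b) ^ 2))
            (fun a _ => Finset.sum_nonneg (fun b _ => hnn a b)) hxd
  have h9 : 0 ≤ 4 * M ^ 2 := by positivity
  calc (h x - h y) ^ 2 ≤ _ := h8
    _ ≤ _ := key
    _ ≤ 4 * M ^ 2 * η := mul_le_mul_of_nonneg_left h4 h9

end Vale.Agent.P015.R2.H376
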